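import Crest.Agent.R204.Ex5_837

/-!
# Row 218, D0: the Milnor boundary map `bd S u : K0 P` of a pullback square (pure algebra)

`IsG S e u` : the idempotent `e` over `P` is free over `A` and over `B`, glued by `u` over `C`.
-/

set_option autoImplicit false
set_option linter.unusedSectionVars false
set_option linter.unusedSimpArgs false

open Matrix
open scoped Kronecker
open Crest.Agent.R204 Crest.Agent.R204.Ex837
open Crest.Agent.R204.K357 (K0)

namespace Crest.Agent.N218.Th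

noncomputable section

variable {P A B C : Type*} [CommRing P] [CommRing A] [CommRing B] [CommRing C]
variable {n m k l : Type*} [Fintype n] [DecidableEq n] [Fintype m] [DecidableEq m]
  [Fintype k] [DecidableEq k] [Fintype l] [DecidableEq l]

/-- `e` is glued by `u` -/
def IsG (S : Sq P A B C) (e : Matrix k k P) (u : Matrix n n C) : Prop :=
  ∃ (a : Matrix k n A) (a' : Matrix n k A) (b : Matrix k n B) (b' : Matrix n k B),
    a * a' = e.map S.p1 ∧ a' * a = 1 ∧ b * b' = e.map S.p2 ∧ b' * b = 1 ∧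
      a.map S.al = b.map S.be * u

variable {S : Sq P A B C}

theorem glue_inv {e : Matrix k k P} {u : Matrix n n C} {a : Matrix k n A} {a' : Matrix n k A}
    {b : Matrix k n B} {b' : Matrix n k B} (h1 : a * a' = e.map S.p1) (h3 : b * b' = e.map S.p2)
    (h4 : b' * b = 1) (h5 : a.map S.al = b.map S.be * u) : u * a'.map S.al = b'.map S.be := by
  have hq := S.comm_matrix e
  rw [← h1, ← h3, Matrix.map_mul, Matrix.map_mul] at hq
  have e4 : b'.map S.be * b.map S.be = 1 := by rw [← Matrix.map_mul, h4, mapOne]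
  calc u * a'.map S.al = (b'.map S.be * b.map S.be) * u * a'.map S.al := by
        rw [e4, Matrix.one_mul]
    _ = b'.map S.be * (a.map S.al * a'.map S.al) := by rw [h5]; simp only [Matrix.mul_assoc]
    _ = b'.map S.be := by rw [hq, ← Matrix.mul_assoc, e4, Matrix.one_mul]

theorem IsG.idem {e : Matrix k k P} {u : Matrix n n C} (H : IsG S e u) : e * e = e := by
  obtain ⟨a, a', b, b', h1, h2, h3, h4, -⟩ := H
  refine S.idem_of ?_ ?_
  · rw [← h1, Matrix.mul_assoc, ← Matrix.mul_assoc a', h2, Matrix.one_mul]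
  · rw [← h3, Matrix.mul_assoc, ← Matrix.mul_assoc b', h4, Matrix.one_mul]

theorem IsG.isUnit {e : Matrix k k P} {u : Matrix n n C} (H : IsG S e u) : IsUnit u := by
  obtain ⟨a, a', b, b', h1, h2, h3, h4, h5⟩ := H
  have h6 := glue_inv h1 h3 h4 h5
  have : u * (a'.map S.al * b.map S.be) = 1 := by
    rw [← Matrix.mul_assoc, h6, ← Matrix.map_mul, h4, mapOne]
  exact IsUnit.of_mul_eq_one _ this

theorem IsG.mvn {e : Matrix k k P} {f : Matrix l l P} {u : Matrix n n C} (H : IsG S e u)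
    (H' : IsG S f u) : K357.MvN e f := by
  obtain ⟨a, a', b, b', h1, h2, h3, h4, h5⟩ := H
  obtain ⟨c, c', d, d', g1, g2, g3, g4, g5⟩ := H'
  have h6 := glue_inv h1 h3 h4 h5
  have g6 := glue_inv g1 g3 g4 g5
  obtain ⟨x, hx1, hx2⟩ := S.exists_lift (a * c') (b * d') (by
    rw [Matrix.map_mul, Matrix.map_mul, h5, Matrix.mul_assoc, g6])
  obtain ⟨y, hy1, hy2⟩ := S.exists_lift (c * a') (d * b') (by
    rw [Matrix.map_mul, Matrix.map_mul, g5, Matrix.mul_assoc, h6])
  refine ⟨x, y, S.ext_matrix ?_ ?_, S.ext_matrix ?_ ?_⟩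
  · rw [Matrix.map_mul, hx1, hy1, Matrix.mul_assoc, ← Matrix.mul_assoc c', g2, Matrix.one_mul, h1]
  · rw [Matrix.map_mul, hx2, hy2, Matrix.mul_assoc, ← Matrix.mul_assoc d', g4, Matrix.one_mul, h3]
  · rw [Matrix.map_mul, hx1, hy1, Matrix.mul_assoc, ← Matrix.mul_assoc a', h2, Matrix.one_mul, g1]
  · rw [Matrix.map_mul, hx2, hy2, Matrix.mul_assoc, ← Matrix.mul_assoc b', h4, Matrix.one_mul, g3]

theorem exists_isG (hal : Function.Surjective S.al) {u : Matrix n n C} (hu : IsUnit u) :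
    ∃ e : Matrix (n ⊕ n) (n ⊕ n) P, IsG S e u := by
  obtain ⟨⟨u, v, uv, vu⟩, rfl⟩ := hu
  obtain ⟨U, V, h1, h2, h3, h4⟩ := lift_diag hal uv vu
  have hJ : (fromRows (1 : Matrix n n A) (0 : Matrix n n A)).map S.al = fromRows 1 0 := by
    ext (i | i) j <;> simp [Matrix.one_apply, apply_ite S.al]
  have hJ' : (fromCols (1 : Matrix n n A) (0 : Matrix n n A)).map S.al = fromCols 1 0 := by
    ext i (j | j) <;> simp [Matrix.one_apply, apply_ite S.al]
  have hK : (fromRows (1 : Matrix n n B) (0 : Matrix n n B)).map S.be = fromRows 1 0 := by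
    ext (i | i) j <;> simp [Matrix.one_apply, apply_ite S.be]
  have hK' : (fromCols (1 : Matrix n n B) (0 : Matrix n n B)).map S.be = fromCols 1 0 := by
    ext i (j | j) <;> simp [Matrix.one_apply, apply_ite S.be]
  obtain ⟨e, he1, he2⟩ := S.exists_lift
    ((U * fromRows (1 : Matrix n n A) (0 : Matrix n n A)) *
      (fromCols (1 : Matrix n n A) (0 : Matrix n n A) * V))
    (fromRows (1 : Matrix n n B) (0 : Matrix n n B) *
      fromCols (1 : Matrix n n B) (0 : Matrix n n B)) (by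
      rw [Matrix.map_mul, Matrix.map_mul, Matrix.map_mul, Matrix.map_mul, h3, h4, hJ, hJ', hK, hK']
      simp [fromBlocks_mul_fromRows, fromCols_mul_fromBlocks, fromRows_mul_fromCols, uv])
  refine ⟨e, _, _, _, _, he1.symm, ?_, he2.symm, ?_, ?_⟩
  · rw [Matrix.mul_assoc, ← Matrix.mul_assoc V, h2, Matrix.one_mul]
    simp [fromCols_mul_fromRows]
  · simp [fromCols_mul_fromRows]
  · rw [Matrix.map_mul, h3, hJ, hK]
    simp [fromBlocks_mul_fromRows, fromRows_mul]

theorem isG_one : IsG S (1 : Matrix n n P) (1 : Matrix n n C) :=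
  ⟨1, 1, 1, 1, by simp [mapOne], by simp, by simp [mapOne], by simp, by simp [mapOne]⟩

theorem fb_map {R T : Type*} [Ring R] [Ring T] (φ : R →+* T) {p q r s : Type*} (x : Matrix p q R)
    (y : Matrix r s R) : (fromBlocks x 0 0 y).map φ = fromBlocks (x.map φ) 0 0 (y.map φ) := by
  rw [fromBlocks_map, Matrix.map_zero _ (map_zero φ), Matrix.map_zero _ (map_zero φ)]

theorem IsG.sum {e : Matrix k k P} {f : Matrix l l P} {u : Matrix n n C} {v : Matrix m m C}
    (H : IsG S e u) (H' : IsG S f v) : IsG S (fromBlocks e 0 0 f) (fromBlocks u 0 0 v) := by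
  obtain ⟨a, a', b, b', h1, h2, h3, h4, h5⟩ := H
  obtain ⟨c, c', d, d', g1, g2, g3, g4, g5⟩ := H'
  refine ⟨fromBlocks a 0 0 c, fromBlocks a' 0 0 c', fromBlocks b 0 0 d, fromBlocks b' 0 0 d',
    ?_, ?_, ?_, ?_, ?_⟩
  · rw [fb_map, fromBlocks_multiply]; simp [h1, g1]
  · rw [fromBlocks_multiply]; simp [h2, g2]
  · rw [fb_map, fromBlocks_multiply]; simp [h3, g3]
  · rw [fromBlocks_multiply]; simp [h4, g4]
  · rw [fb_map, fb_map, fromBlocks_multiply]; simp [h5, g5]

theorem IsG.frame {e : Matrix k k P} {u : Matrix n n C} (H : IsG S e u) {c : Matrix n m A}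
    {c' : Matrix m n A} {d : Matrix n m B} {d' : Matrix m n B} (c1 : c * c' = 1) (c2 : c' * c = 1)
    (d1 : d * d' = 1) (d2 : d' * d = 1) : IsG S e (d'.map S.be * u * c.map S.al) := by
  obtain ⟨a, a', b, b', h1, h2, h3, h4, h5⟩ := H
  refine ⟨a * c, c' * a', b * d, d' * b', ?_, ?_, ?_, ?_, ?_⟩
  · rw [Matrix.mul_assoc, ← Matrix.mul_assoc c, c1, Matrix.one_mul, h1]
  · rw [Matrix.mul_assoc, ← Matrix.mul_assoc a', h2, Matrix.one_mul, c2]
  · rw [Matrix.mul_assoc, ← Matrix.mul_assoc d, d1, Matrix.one_mul, h3]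
  · rw [Matrix.mul_assoc, ← Matrix.mul_assoc b', h4, Matrix.one_mul, d2]
  · have : d.map S.be * d'.map S.be = 1 := by rw [← Matrix.map_mul, d1, mapOne]
    rw [Matrix.map_mul, Matrix.map_mul, h5]
    calc _ = b.map S.be * (d.map S.be * d'.map S.be) * u * c.map S.al := by
          rw [this, Matrix.mul_one]
      _ = _ := by simp only [Matrix.mul_assoc]

open Classical in
/-- the boundary map -/
def bd (S : Sq P A B C) (u : Matrix n n C) : K0 P :=
  if h : ∃ e : Matrix (n ⊕ n) (n ⊕ n) P, IsG S e u then K0.cls h.choose - Fintype.card n else 0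

theorem IsG.cls (hal : Function.Surjective S.al) {e : Matrix k k P} {u : Matrix n n C}
    (H : IsG S e u) : bd S u = K0.cls e - Fintype.card n := by
  have h := exists_isG hal H.isUnit
  rw [bd, dif_pos h, K0.cls_eq h.choose_spec.idem H.idem (h.choose_spec.mvn H)]

theorem bd_one (hal : Function.Surjective S.al) : bd S (1 : Matrix n n C) = 0 := by
  rw [isG_one.cls hal, K0.cls_one, sub_self]

theorem bd_sum (hal : Function.Surjective S.al) {u : Matrix n n C} {v : Matrix m m C}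
    (hu : IsUnit u) (hv : IsUnit v) : bd S (fromBlocks u 0 0 v) = bd S u + bd S v := by
  obtain ⟨e, he⟩ := exists_isG hal hu
  obtain ⟨f, hf⟩ := exists_isG hal hv
  rw [(he.sum hf).cls hal, he.cls hal, hf.cls hal, K0.cls_sum he.idem hf.idem, Fintype.card_sum]
  push_cast
  ring

theorem bd_frame (hal : Function.Surjective S.al) {u : Matrix n n C} (hu : IsUnit u)
    {c : Matrix n n A} {d : Matrix n n B} (hc : IsUnit c) (hd : IsUnit d) :
    bd S (d.map S.be * u * c.map S.al) = bd S u := by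
  obtain ⟨e, he⟩ := exists_isG hal hu
  obtain ⟨⟨c, c', c1, c2⟩, rfl⟩ := hc
  obtain ⟨⟨d, d', d1, d2⟩, rfl⟩ := hd
  rw [(he.frame c1 c2 d2 d1).cls hal, he.cls hal]

theorem bd_mul (hal : Function.Surjective S.al) {u v : Matrix n n C} (hu : IsUnit u)
    (hv : IsUnit v) : bd S (u * v) = bd S u + bd S v := by
  obtain ⟨⟨v, w, vw, wv⟩, rfl⟩ := hv
  have hv : IsUnit v := ⟨⟨v, w, vw, wv⟩, rfl⟩
  obtain ⟨U, V, h1, h2, h3, -⟩ := lift_diag hal vw wv
  have e1 : fromBlocks (u * v) 0 0 (1 : Matrix n n C) =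
      (1 : Matrix (n ⊕ n) (n ⊕ n) B).map S.be * fromBlocks u 0 0 v * U.map S.al := by
    rw [mapOne, Matrix.one_mul, h3, fromBlocks_multiply]; simp [vw]
  have huv : IsUnit (fromBlocks u 0 0 v) := by
    rw [Matrix.isUnit_fromBlocks_zero₂₁]; exact ⟨hu, hv⟩
  have e2 := bd_sum hal (hu.mul hv) (isUnit_one (M := Matrix n n C))
  rw [bd_one hal, add_zero, e1, bd_frame hal huv ⟨⟨U, V, h1, h2⟩, rfl⟩ isUnit_one,
    bd_sum hal hu hv] at e2
  exact e2.symm


theorem p2_bd (hal : Function.Surjective S.al) {u : Matrix n n C} (hu : IsUnit u) :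
    K0.map S.p2 (bd S u) = 0 := by
  obtain ⟨e, he⟩ := exists_isG hal hu
  rw [he.cls hal, map_sub, K0.map_cls _ he.idem, ← K0.mapRing_apply, map_natCast]
  have hi := he.idem
  obtain ⟨a, a', b, b', -, -, h1, h2, -⟩ := he
  rw [K0.cls_eq (K357.idem_map _ hi) (idemOne n) ⟨b, b', h1, h2⟩, K0.cls_one, sub_self]

theorem free_of {e : Matrix k k A} (he : e * e = e) {r : ℕ}
    (h : K0.cls e = K0.cls (1 : Matrix (Fin r) (Fin r) A)) :
    ∃ l0 : ℕ, ∀ l, l0 ≤ l → K357.MvN (fromBlocks e 0 0 (1 : Matrix (Fin l) (Fin l) A))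
      (1 : Matrix (Fin (r + l)) (Fin (r + l)) A) := by
  obtain ⟨l0, hl⟩ := exists_free he h
  refine ⟨l0, fun l hl0 => ?_⟩
  obtain ⟨j, rfl⟩ := Nat.exists_eq_add_of_le hl0
  have h1 := K357.cl_eq (K357.idem_sum he (idemOne _)) (idemOne _) hl
  rw [← fromBlocks_one, K357.cl_sum he (idemOne _), K357.cl_sum (idemOne _) (idemOne _),
    K0.cl_one_fin, K0.cl_one_fin] at h1
  rw [← K357.cl_eq_iff (K357.idem_sum he (idemOne _)) (idemOne _), K357.cl_sum he (idemOne _),
    K0.cl_one_fin, K0.cl_one_fin]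
  push_cast
  rw [← add_assoc, h1, add_assoc]

/-- exactness at `K0 P` -/
theorem exists_bd (hal : Function.Surjective S.al) {x : K0 P} (h1 : K0.map S.p1 x = 0)
    (h2 : K0.map S.p2 x = 0) : ∃ (r : ℕ) (u : Matrix (Fin r) (Fin r) C), IsUnit u ∧ bd S u = x := by
  obtain ⟨j, r, q, hq, rfl⟩ := K0.exists_rep_one x
  rw [map_sub, K0.map_cls _ hq, K0.map_cls _ (idemOne _), mapOne, sub_eq_zero] at h1 h2
  obtain ⟨l1, hl1⟩ := free_of (K357.idem_map _ hq) h1
  obtain ⟨l2, hl2⟩ := free_of (K357.idem_map _ hq) h2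
  obtain ⟨a, a', e1, e2⟩ := hl1 (l1 + l2) (Nat.le_add_right _ _)
  obtain ⟨b, b', e3, e4⟩ := hl2 (l1 + l2) (Nat.le_add_left _ _)
  have H : IsG S (fromBlocks q 0 0 (1 : Matrix (Fin (l1 + l2)) (Fin (l1 + l2)) P))
      (b'.map S.be * a.map S.al) := by
    have e1' : a * a' = (fromBlocks q 0 0 (1 : Matrix (Fin (l1 + l2)) (Fin (l1 + l2)) P)).map S.p1 := by
      rw [fb_map, mapOne, e1]
    have e3' : b * b' = (fromBlocks q 0 0 (1 : Matrix (Fin (l1 + l2)) (Fin (l1 + l2)) P)).map S.p2 := by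
      rw [fb_map, mapOne, e3]
    refine ⟨a, a', b, b', e1', e2, e3', e4, ?_⟩
    have hq := S.comm_matrix (fromBlocks q 0 0 (1 : Matrix (Fin (l1 + l2)) (Fin (l1 + l2)) P))
    rw [← e1', ← e3', Matrix.map_mul, Matrix.map_mul] at hq
    rw [← Matrix.mul_assoc, ← hq, Matrix.mul_assoc, ← Matrix.map_mul, e2, mapOne, Matrix.mul_one]
  refine ⟨_, _, H.isUnit, ?_⟩
  rw [H.cls hal, K0.cls_sum hq (idemOne _), K0.cls_one, K0.cls_one]
  simp only [Fintype.card_fin]
  push_cast
  ring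

/-- exactness at the units -/
theorem of_bd_eq_zero (hal : Function.Surjective S.al) {u : Matrix n n C} (hu : IsUnit u)
    (h : bd S u = 0) : ∃ (r : ℕ) (c : Matrix (n ⊕ Fin r) (n ⊕ Fin r) A)
      (d : Matrix (n ⊕ Fin r) (n ⊕ Fin r) B), IsUnit c ∧ IsUnit d ∧
        fromBlocks u 0 0 1 = d.map S.be * c.map S.al := by
  obtain ⟨e, he⟩ := exists_isG hal hu
  rw [he.cls hal, sub_eq_zero, ← K0.cls_one] at h
  obtain ⟨r, x, y, xy, yx⟩ := (K0.cls_eq_iff he.idem (idemOne n)).1 h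
  rw [fromBlocks_one] at yx
  obtain ⟨a, a', b, b', h1, h2, h3, h4, h5⟩ := he.sum (isG_one (n := Fin r))
  rw [← xy, Matrix.map_mul] at h1 h3
  have y1 : y.map S.p1 * x.map S.p1 = 1 := by rw [← Matrix.map_mul, yx, mapOne]
  have y2 : y.map S.p2 * x.map S.p2 = 1 := by rw [← Matrix.map_mul, yx, mapOne]
  refine ⟨r, y.map S.p1 * a, b' * x.map S.p2, IsUnit.of_mul_eq_one (a' * x.map S.p1) ?_,
    IsUnit.of_mul_eq_one_right (y.map S.p2 * b) ?_, ?_⟩
  · rw [Matrix.mul_assoc, ← Matrix.mul_assoc a, h1, Matrix.mul_assoc, y1, Matrix.mul_one, y1]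
  · rw [Matrix.mul_assoc, ← Matrix.mul_assoc b, h3, Matrix.mul_assoc, y2, Matrix.mul_one, y2]
  · have e4 : b'.map S.be * b.map S.be = 1 := by rw [← Matrix.map_mul, h4, mapOne]
    have e5 : (x.map S.p2).map S.be * (y.map S.p1).map S.al = b.map S.be * b'.map S.be := by
      rw [S.comm_matrix y, ← Matrix.map_mul, ← h3, Matrix.map_mul]
    rw [Matrix.map_mul, Matrix.map_mul, Matrix.mul_assoc, ← Matrix.mul_assoc (_ : Matrix _ _ C)
      ((y.map S.p1).map S.al), e5, h5]
    simp only [← Matrix.mul_assoc, e4, Matrix.one_mul]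

section nat

variable {P' A' B' C' : Type*} [CommRing P'] [CommRing A'] [CommRing B'] [CommRing C']

/-- morphisms of squares -/
structure SqH (S : Sq P A B C) (S' : Sq P' A' B' C') where
  fP : P →+* P'
  fA : A →+* A'
  fB : B →+* B'
  fC : C →+* C'
  h1 : ∀ x, S'.p1 (fP x) = fA (S.p1 x)
  h2 : ∀ x, S'.p2 (fP x) = fB (S.p2 x)
  ha : ∀ x, S'.al (fA x) = fC (S.al x)
  hb : ∀ x, S'.be (fB x) = fC (S.be x)

variable {S' : Sq P' A' B' C'}

theorem IsG.map (F : SqH S S') {e : Matrix k k P} {u : Matrix n n C} (H : IsG S e u) :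
    IsG S' (e.map F.fP) (u.map F.fC) := by
  obtain ⟨a, a', b, b', h1, h2, h3, h4, h5⟩ := H
  refine ⟨a.map F.fA, a'.map F.fA, b.map F.fB, b'.map F.fB, ?_, ?_, ?_, ?_, ?_⟩
  · rw [← Matrix.map_mul, h1]; ext i j; simp [F.h1]
  · rw [← Matrix.map_mul, h2, mapOne]
  · rw [← Matrix.map_mul, h3]; ext i j; simp [F.h2]
  · rw [← Matrix.map_mul, h4, mapOne]
  · have e1 : (a.map F.fA).map S'.al = (a.map S.al).map F.fC := by ext i j; simp [F.ha]
    have e2 : (b.map F.fB).map S'.be = (b.map S.be).map F.fC := by ext i j; simp [F.hb]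
    rw [e1, e2, h5, Matrix.map_mul]

theorem map_bd (F : SqH S S') (hal : Function.Surjective S.al) (hal' : Function.Surjective S'.al)
    {u : Matrix n n C} (hu : IsUnit u) : K0.map F.fP (bd S u) = bd S' (u.map F.fC) := by
  obtain ⟨e, he⟩ := exists_isG hal hu
  rw [(he.map F).cls hal', he.cls hal, map_sub, K0.map_cls _ he.idem, ← K0.mapRing_apply,
    map_natCast]

end nat

/-- twisting a unit by an idempotent -/
def tw (u : Matrix n n C) (q : Matrix k k C) : Matrix (n × k) (n × k) C :=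
  u ⊗ₖ q + (1 : Matrix n n C) ⊗ₖ (1 - q)

theorem kron_map {R T : Type*} [CommRing R] [CommRing T] (φ : R →+* T) {p q r s : Type*}
    (x : Matrix p q R) (y : Matrix r s R) : (x ⊗ₖ y).map φ = x.map φ ⊗ₖ y.map φ := by
  ext ⟨i, i'⟩ ⟨j, j'⟩; simp

theorem compl_map {R T : Type*} [CommRing R] [CommRing T] (φ : R →+* T) (q : Matrix k k R) :
    (1 - q).map φ = 1 - q.map φ := by
  ext i j; simp [Matrix.one_apply, apply_ite φ]


theorem tw_fr {q : Matrix k k A} (hq : q * q = q) (a : Matrix l n A) (a' : Matrix n l A)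
    (h : a' * a = 1) :
    fromRows (a ⊗ₖ q) ((1 : Matrix n n A) ⊗ₖ (1 - q)) *
      fromCols (a' ⊗ₖ q) ((1 : Matrix n n A) ⊗ₖ (1 - q)) =
      fromBlocks ((a * a') ⊗ₖ q) 0 0 ((1 : Matrix n n A) ⊗ₖ (1 - q)) ∧
    fromCols (a' ⊗ₖ q) ((1 : Matrix n n A) ⊗ₖ (1 - q)) *
      fromRows (a ⊗ₖ q) ((1 : Matrix n n A) ⊗ₖ (1 - q)) = 1 := by
  have c1 : (1 - q) * q = 0 := by rw [Matrix.sub_mul, Matrix.one_mul, hq, sub_self]
  have c2 : q * (1 - q) = 0 := by rw [Matrix.mul_sub, Matrix.mul_one, hq, sub_self]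
  have c3 : (1 - q) * (1 - q) = 1 - q := by rw [Matrix.mul_sub, c1, Matrix.mul_one, sub_zero]
  constructor
  · rw [fromRows_mul_fromCols]
    simp only [← mul_kronecker_mul, hq, c1, c2, c3, kronecker_zero, Matrix.mul_one]
  · rw [fromCols_mul_fromRows]
    simp only [← mul_kronecker_mul, hq, c3, h, Matrix.mul_one]
    rw [← kronecker_add, add_sub_cancel, one_kronecker_one]

theorem IsG.tw {e : Matrix l l P} {u : Matrix n n C} (H : IsG S e u) {q : Matrix k k P}
    (hq : q * q = q) : IsG S (fromBlocks (e ⊗ₖ q) 0 0 ((1 : Matrix n n P) ⊗ₖ (1 - q)))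
      (tw u ((q.map S.p2).map S.be)) := by
  obtain ⟨a, a', b, b', h1, h2, h3, h4, h5⟩ := H
  have hA := tw_fr (K357.idem_map S.p1 hq) a a' h2
  have hB := tw_fr (K357.idem_map S.p2 hq) b b' h4
  refine ⟨_, _, _, _, hA.1.trans ?_, hA.2, hB.1.trans ?_, hB.2, ?_⟩
  · rw [fb_map, kron_map, kron_map, mapOne, compl_map, h1]
  · rw [fb_map, kron_map, kron_map, mapOne, compl_map, h3]
  · have hC : (q.map S.p2).map S.be * (q.map S.p2).map S.be = (q.map S.p2).map S.be :=
      K357.idem_map _ (K357.idem_map _ hq)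
    rw [fromRows_map, fromRows_map, kron_map, kron_map, kron_map, kron_map, mapOne, mapOne,
      compl_map, compl_map, S.comm_matrix q, h5, fromRows_mul, Th.tw]
    generalize (q.map S.p2).map S.be = Q at hC
    have c1 : (1 - Q) * Q = 0 := by rw [Matrix.sub_mul, Matrix.one_mul, hC, sub_self]
    have c2 : Q * (1 - Q) = 0 := by rw [Matrix.mul_sub, Matrix.mul_one, hC, sub_self]
    have c3 : (1 - Q) * (1 - Q) = 1 - Q := by rw [Matrix.mul_sub, c1, Matrix.mul_one, sub_zero]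
    simp only [Matrix.mul_add, ← mul_kronecker_mul, hC, c1, c2, c3, kronecker_zero, add_zero,
      zero_add, Matrix.mul_one]

/-- `bd` is a module map -/
theorem bd_tw (hal : Function.Surjective S.al) {u : Matrix n n C} (hu : IsUnit u)
    {q : Matrix k k P} (hq : q * q = q) :
    IsUnit (tw u ((q.map S.p2).map S.be)) ∧
      bd S (tw u ((q.map S.p2).map S.be)) = bd S u * K0.cls q := by
  obtain ⟨e, he⟩ := exists_isG hal hu
  refine ⟨(he.tw hq).isUnit, ?_⟩
  have hc := K0.idem_compl hq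
  have h1 := K0.cls_compl hq
  rw [K0.cls_one] at h1
  rw [(he.tw hq).cls hal, he.cls hal, K0.cls_sum (K357.idem_kron he.idem hq)
    (K357.idem_kron (idemOne n) hc), K0.cls_kron he.idem hq, K0.cls_kron (idemOne n) hc,
    K0.cls_one, Fintype.card_prod]
  push_cast
  rw [← h1]
  ring

end

end Crest.Agent.N218.Th
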