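import Crest.Agent.N218.Th.Defs
import Crest.Agent.N218.K.Rel
import Crest.Agent.N218.K.Pd

-- ▼ part N218/Th/Loc
section

/-!
# Row 218, D0 (helper79): Thom classes, local to global
-/

set_option autoImplicit false
set_option linter.unusedVariables false

open Crest.Agent.R204 Crest.Agent.R204.Ex837 Crest.Agent.R204.LineT357
open Crest.Agent.R204.K357 (K0)
open Crest.Agent.N218.K unitInterval Set Topology

namespace Crest.Agent.N218.Th

noncomputable section

/-- composition as an algebra map -/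
abbrev ca {X Y : Type} [TopologicalSpace X] [TopologicalSpace Y] (f : C(X, Y)) :
    C(Y, ℂ) →ₐ[ℂ] C(X, ℂ) := ContinuousMap.compRightAlgHom ℂ ℂ f

theorem ca_cont {X Y : Type} [TopologicalSpace X] [TopologicalSpace Y] [CompactSpace X]
    [CompactSpace Y] (f : C(X, Y)) : Continuous (ca f) :=
  ContinuousMap.compRightAlgHom_continuous ℂ ℂ f

section alg
variable {R T R' T' U : Type} [CommRing R] [CommRing T] [Algebra ℂ R] [Algebra ℂ T] [CommRing R']
  [CommRing T'] [Algebra ℂ R'] [Algebra ℂ T'] [CommRing U] [Algebra ℂ U]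


theorem kk_sq (g : T →ₐ[ℂ] U) (f : R →ₐ[ℂ] T) (g' : T' →ₐ[ℂ] U) (f' : R →ₐ[ℂ] T')
    (H : ∀ a, g (f a) = g' (f' a)) (x : KC R) : KA g (KA f x) = KA g' (KA f' x) :=
  kr_sq (g : T →+* U) (f : R →+* T) (g' : T' →+* U) (f' : R →+* T') H x

theorem ka_bij (e : R →ₐ[ℂ] T) (he : Function.Bijective e) : Function.Bijective (KA e) := by
  let e' : T →ₐ[ℂ] R := (AlgEquiv.ofBijective e he).symm
  exact Function.bijective_iff_has_inverse.2 ⟨KA e',
    fun x => kr_id (e' : T →+* R) (e : R →+* T) (AlgEquiv.ofBijective e he).symm_apply_apply x,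
    fun x => kr_id (e : R →+* T) (e' : T →+* R) (AlgEquiv.ofBijective e he).apply_symm_apply x⟩

/-- transport of Thom classes along isomorphisms -/
theorem Bj.iso {p : R →ₐ[ℂ] T} {s : T →ₐ[ℂ] R} {l : KC T} (h : Bj p s l) {p' : R' →ₐ[ℂ] T'}
    {s' : T' →ₐ[ℂ] R'} (eR : R →ₐ[ℂ] R') (eT : T →ₐ[ℂ] T') (hR : Function.Bijective eR)
    (hT : Function.Bijective eT) (hp : ∀ a, p' (eR a) = eT (p a)) (hs : ∀ a, s' (eT a) = eR (s a)) :
    Bj p' s' (KA eT l) := by
  constructor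
  · intro a ha
    obtain ⟨a, rfl⟩ := (ka_bij eR hR).2 a
    rw [kk_sq p' eR eT p hp, ← map_mul, map_eq_zero_iff _ (ka_bij eT hT).1] at ha
    rw [h.1 a ha, map_zero]
  · intro x hx
    obtain ⟨x, rfl⟩ := (ka_bij eT hT).2 x
    rw [kk_sq s' eT eR s hs, map_eq_zero_iff _ (ka_bij eR hR).1] at hx
    obtain ⟨a, rfl⟩ := h.2 x hx
    exact ⟨KA eR a, by rw [kk_sq p' eR eT p hp, map_mul]⟩

end alg

/-! ## loops -/

/-- the circle -/
abbrev T1 : Type := AddCircle (1 : ℝ)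

/-- the parametrisation of the circle -/
def qT : C(I, T1) := ⟨fun t => ((t : ℝ) : T1), (AddCircle.continuous_mk' 1).comp continuous_subtype_val⟩

theorem qT_01 : qT 0 = qT 1 := (AddCircle.coe_period (1 : ℝ)).symm

theorem qT_surj : Function.Surjective qT := fun y =>
  ⟨⟨AddCircle.equivIco 1 0 y, (AddCircle.equivIco 1 0 y).2.1,
    (by simpa using (AddCircle.equivIco 1 0 y).2.2.le)⟩, AddCircle.coe_equivIco⟩

theorem qT_fac {α : Type} (f : I → α) (h : f 0 = f 1) {t t' : I} (e : qT t = qT t') :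
    f t = f t' := by
  have k : ∀ t : I, ∃ u : I, (u : ℝ) ∈ Ico (0 : ℝ) (0 + 1) ∧ qT u = qT t ∧ f u = f t := fun t => by
    by_cases ht : t = 1
    · exact ⟨0, by simp, ht ▸ qT_01, ht ▸ h⟩
    · exact ⟨t, ⟨t.2.1, by simpa using lt_of_le_of_ne t.2.2 fun c => ht (Subtype.ext c)⟩, rfl, rfl⟩
  obtain ⟨u, u1, u2, u3⟩ := k t
  obtain ⟨u', v1, v2, v3⟩ := k t'
  have : u = u' :=
    Subtype.ext ((AddCircle.coe_eq_coe_iff_of_mem_Ico u1 v1).1 (u2.trans (e.trans v2.symm)))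
  rw [← u3, ← v3, this]

section lp
variable (W : Type) [TopologicalSpace W]

/-- the cylinder over the torus -/
def piT : C(I × W, W × T1) := ⟨fun z => (z.2, qT z.1), by fun_prop⟩

variable [CompactSpace W]

/-- functions on `W × S¹` are loops of functions on `W` -/
def lpT : C(W × T1, ℂ) →ₐ[ℂ] LA C(W, ℂ) where
  toFun f := LA.mk (f.comp (piT W)).curry
    (ContinuousMap.ext fun w => congrArg (fun t => f (w, t)) qT_01)
  map_one' := rfl
  map_mul' _ _ := rfl
  map_zero' := rfl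
  map_add' _ _ := rfl
  commutes' _ := rfl


theorem lpT_bij [T2Space W] : Function.Bijective (lpT W) := by
  constructor
  · intro f f' e
    ext ⟨w, y⟩
    obtain ⟨t, rfl⟩ := qT_surj y
    exact congrArg (fun a : LA C(W, ℂ) => a.fn t w) e
  · intro a
    have hπ : IsQuotientMap (piT W) :=
      (piT W).continuous.isClosedMap.isQuotientMap (piT W).continuous fun ⟨w, y⟩ => by
        obtain ⟨t, rfl⟩ := qT_surj y
        exact ⟨(t, w), rfl⟩
    have hg : Function.FactorsThrough a.fn.uncurry (piT W) := by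
      rintro ⟨t, w⟩ ⟨t', w'⟩ e
      obtain rfl : w = w' := congrArg Prod.fst e
      exact congrArg (fun c : C(W, ℂ) => c w) (qT_fac a.fn a.fn01 (congrArg Prod.snd e))
    exact ⟨hπ.lift _ hg, LA.ext fun t => ContinuousMap.ext fun w =>
      DFunLike.congr_fun (hπ.lift_comp _ hg) (t, w)⟩

end lp

/-! ## squares of closed covers -/

/-- the Mayer-Vietoris square of a cover -/
def bqOf {W W1 W2 W0 : Type} [TopologicalSpace W] [TopologicalSpace W1] [TopologicalSpace W2]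
    [TopologicalSpace W0] [CompactSpace W] [CompactSpace W1] [CompactSpace W2] [CompactSpace W0]
    [T2Space W] [T2Space W1] (i : C(W1, W)) (j : C(W2, W)) (k : C(W0, W1)) (l : C(W0, W2))
    (hi : Function.Injective i) (hj : Function.Injective j) (hk : Function.Injective k)
    (h : ∀ x, x ∈ range i ∨ x ∈ range j) (hc : ∀ c, i (k c) = j (l c))
    (hs : ∀ u u', i u = j u' → ∃ c, k c = u ∧ l c = u') :
    Bq C(W, ℂ) C(W1, ℂ) C(W2, ℂ) C(W0, ℂ) where
  p1 := ca i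
  p2 := ca j
  al := ca k
  be := ca l
  ca := ca_cont k
  cb := ca_cont l
  comm := (sqCov i j k l hi hj h hc hs).comm
  lift := (sqCov i j k l hi hj h hc hs).lift
  inj := (sqCov i j k l hi hj h hc hs).inj
  sur := cr_surj hk

/-! ## ex-spaces -/

section ex
variable {X X' X'' : Type} [TopologicalSpace X] [TopologicalSpace X'] [TopologicalSpace X'']

theorem th_iff (A : Ex X) (l : KX A.E) : A.Th l ↔ A.Rd l ∧ Bj (ca A.p) (ca A.s) l := by
  refine and_congr_right fun hl => ⟨fun h => ⟨fun a ha => ?_, fun x hx => (h x hx).exists⟩,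
    fun h x hx => ?_⟩
  · exact (h 0 (map_zero _)).unique ha.symm (by rw [Ex.sm, map_zero, zero_mul])
  · obtain ⟨a, ha⟩ := h.2 x hx
    refine ⟨a, ha, fun b hb => sub_eq_zero.1 (h.1 _ ?_)⟩
    rw [map_sub, sub_mul, sub_eq_zero]
    exact hb.symm.trans ha

/-- composition of maps of ex-spaces -/
def hcm {A : Ex X} {B : Ex X'} {C : Ex X''} {g : C(X, X')} {g' : C(X', X'')} (F : Hm A B g)
    (G : Hm B C g') : Hm A C (g'.comp g) :=
  ⟨G.f.comp F.f, fun e => (G.hp _).trans (congrArg g' (F.hp e)),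
    fun x => (congrArg G.f (F.hs x)).trans (G.hs _)⟩

theorem Cart.cm {A : Ex X} {B : Ex X'} {C : Ex X''} {g : C(X, X')} {g' : C(X', X'')} {F : Hm A B g}
    {G : Hm B C g'} (h : Cart F) (h' : Cart G) : Cart (hcm F G) := by
  refine ⟨fun e e' a b => h.1 e e' a (h'.1 _ _ ?_ b), fun x c hc => ?_⟩
  · rw [F.hp, F.hp, a]
  · obtain ⟨b, b1, b2⟩ := h'.2 (g x) c hc
    obtain ⟨e, e1, e2⟩ := h.2 x b b1.symm
    exact ⟨e, e1, (congrArg G.f e2).trans b2⟩

theorem rd_pull {A : Ex X} {B : Ex X'} {g : C(X, X')} (F : Hm A B g) {l : KX B.E} (h : B.Rd l) :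
    A.Rd (pull F.f l) := by
  rw [Ex.Rd, pull_pull A.s F.f (B.s.comp g) F.hs, pull_comp, h, map_zero]

/-- product with a compact space -/
def exT (A : Ex X) (T : Type) [TopologicalSpace T] [CompactSpace T] [T2Space T] : Ex (X × T) where
  E := A.E × T
  p := A.p.prodMap (.id T)
  s := A.s.prodMap (.id T)
  ps x := Prod.ext (A.ps _) rfl

/-- the projection -/
def exTp (A : Ex X) (T : Type) [TopologicalSpace T] [CompactSpace T] [T2Space T] :
    Hm (exT A T) A .fst := ⟨.fst, fun _ => rfl, fun _ => rfl⟩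

theorem exTp_cart (A : Ex X) (T : Type) [TopologicalSpace T] [CompactSpace T] [T2Space T] :
    Cart (exTp A T) :=
  ⟨fun e e' a b => Prod.ext b (congrArg Prod.snd a :), fun x b h =>
    ⟨(b, x.2), Prod.ext h.symm rfl, rfl⟩⟩

/-- inclusion of a subset -/
def sinc (U : Set X) : C(U, X) := ⟨Subtype.val, continuous_subtype_val⟩

/-- restriction to a closed set -/
def exR (A : Ex X) {U : Set X} (hU : IsClosed U) : Ex U where
  E := A.p ⁻¹' U
  cpt := isCompact_iff_compactSpace.1 (hU.preimage A.p.continuous).isCompact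
  p := ⟨fun e => ⟨A.p e, e.2⟩, by fun_prop⟩
  s := ⟨fun x => ⟨A.s x, show A.p (A.s x) ∈ U by rw [A.ps]; exact x.2⟩, by fun_prop⟩
  ps x := Subtype.ext (A.ps _)

/-- the inclusion -/
def exRi (A : Ex X) {U : Set X} (hU : IsClosed U) : Hm (exR A hU) A (sinc U) :=
  ⟨sinc _, fun _ => rfl, fun _ => rfl⟩

theorem exRi_cart (A : Ex X) {U : Set X} (hU : IsClosed U) : Cart (exRi A hU) :=
  ⟨fun e e' a b => Subtype.ext b, fun x b h =>
    ⟨⟨b, show A.p b ∈ U from h ▸ x.2⟩, Subtype.ext h.symm, rfl⟩⟩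

theorem Un.bj2 {B : Ex X} {l : KX B.E} {S : Set X} (h : Un B l S) {Z : Type} [TopologicalSpace Z]
    [CompactSpace Z] [T2Space Z] (A : Ex Z) {g : C(Z, X)} (F : Hm A B g) (hF : Cart F)
    (hg : ∀ z, g z ∈ S) :
    Bj2 (ca A.p) (ca_cont _) (ca A.s) (ca_cont _) (pull F.f l) := by
  refine ⟨((th_iff _ _).1 (h Z A g F hF hg)).2, ?_⟩
  have k := (((th_iff _ _).1 (h _ (exT A T1) _ (hcm (exTp A T1) F) ((exTp_cart A T1).cm hF)
    fun z => hg _)).2).iso (p' := LA.map (ca A.p) (ca_cont _)) (s' := LA.map (ca A.s) (ca_cont _))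
    (lpT Z) (lpT A.E) (lpT_bij Z) (lpT_bij A.E) (fun _ => rfl) fun _ => rfl
  have e : KA (lpT A.E) (pull (hcm (exTp A T1) F).f l) = cs C(A.E, ℂ) (pull F.f l) :=
    kk_sq (lpT A.E) (ca (hcm (exTp A T1) F).f) LA.cst (ca F.f) (fun _ => rfl) l
  exact e ▸ k

end ex

/-- the square of a closed cover by subsets -/
def bqS {W : Type} [TopologicalSpace W] [CompactSpace W] [T2Space W] (U V : Set W) [CompactSpace U]
    [CompactSpace V] [CompactSpace ↥(U ∩ V)] (h : ∀ x, x ∈ U ∨ x ∈ V) :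
    Bq C(W, ℂ) C(U, ℂ) C(V, ℂ) C(↥(U ∩ V), ℂ) :=
  bqOf (sinc U) (sinc V) (.inclusion inter_subset_left) (.inclusion inter_subset_right)
    Subtype.val_injective Subtype.val_injective (inclusion_injective inter_subset_left)
    (fun x => (h x).imp (fun a => ⟨⟨x, a⟩, rfl⟩) fun a => ⟨⟨x, a⟩, rfl⟩) (fun _ => rfl)
    fun u u' e => ⟨⟨u, u.2, by rw [show (u : W) = u' from e]; exact u'.2⟩, rfl, Subtype.ext e⟩

/-- **local to global** -/
theorem loc (five : FIVE) : LOC := by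
  intro X _ B l S T hl hS hT uS uT Z _ _ _ A g F hF hg
  have hU : IsClosed (g ⁻¹' S) := hS.preimage g.continuous
  have hV : IsClosed (g ⁻¹' T) := hT.preimage g.continuous
  have hW := hU.inter hV
  have := isCompact_iff_compactSpace.1 hU.isCompact
  have := isCompact_iff_compactSpace.1 hV.isCompact
  have := isCompact_iff_compactSpace.1 hW.isCompact
  let A1 := exR A hU
  let A2 := exR A hV
  let A0 := exR A hW
  let i : C(A0.E, A1.E) := .inclusion (preimage_mono inter_subset_left)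
  let j : C(A0.E, A2.E) := .inclusion (preimage_mono inter_subset_right)
  let Q := bqS (g ⁻¹' S) (g ⁻¹' T) hg
  let Q' : Bq C(A.E, ℂ) C(A1.E, ℂ) C(A2.E, ℂ) C(A0.E, ℂ) :=
    bqOf (exRi A hU).f (exRi A hV).f i j Subtype.val_injective Subtype.val_injective
      (inclusion_injective (preimage_mono inter_subset_left))
      (fun x => (hg (A.p x)).imp (fun a => ⟨⟨x, a⟩, rfl⟩) fun a => ⟨⟨x, a⟩, rfl⟩) (fun _ => rfl)
      fun u u' e => ⟨⟨u.1, u.2, by rw [show u.1 = u'.1 from e]; exact u'.2⟩, rfl, Subtype.ext e⟩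
  let P : BqH Q Q' := ⟨ca A.p, ca A1.p, ca A2.p, ca A0.p, ca_cont _, ca_cont _, ca_cont _,
    fun _ => rfl, fun _ => rfl, fun _ => rfl, fun _ => rfl⟩
  let G : BqH Q' Q := ⟨ca A.s, ca A1.s, ca A2.s, ca A0.s, ca_cont _, ca_cont _, ca_cont _,
    fun _ => rfl, fun _ => rfl, fun _ => rfl, fun _ => rfl⟩
  have b1 := uS.bj2 A1 (hcm (exRi A hU) F) ((exRi_cart A hU).cm hF) fun z => z.2
  have b2 := uT.bj2 A2 (hcm (exRi A hV) F) ((exRi_cart A hV).cm hF) fun z => z.2
  have b0 := uS.bj2 A0 (hcm (exRi A hW) F) ((exRi_cart A hW).cm hF) fun z => z.2.1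
  have e1 : pull (hcm (exRi A hU) F).f l = KA Q'.p1 (pull F.f l) := pull_comp _ _ _
  have e2 : pull (hcm (exRi A hV) F).f l = KA Q'.p2 (pull F.f l) := pull_comp _ _ _
  have e0 : pull (hcm (exRi A hW) F).f l = KA Q'.be (KA Q'.p2 (pull F.f l)) := by
    rw [← e2]
    exact (pull_pull j _ _ (fun _ => rfl) l).symm
  rw [e1] at b1
  rw [e2] at b2
  rw [e0] at b0
  exact (th_iff _ _).2 ⟨rd_pull F hl, five _ _ _ _ _ _ _ _ Q Q' P G _
    (fun x => ContinuousMap.ext fun z => congrArg x (A.ps z))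
    (fun x => ContinuousMap.ext fun z => congrArg x (A1.ps z))
    (fun x => ContinuousMap.ext fun z => congrArg x (A2.ps z))
    (fun x => ContinuousMap.ext fun z => congrArg x (A0.ps z)) (rd_pull F hl) b1 b2 b0⟩

end

end Crest.Agent.N218.Th
end

-- ▼ part N218/Th/Mv

/-!
# Row 218, D0: the Mayer-Vietoris sequence `K(LA A) ⊕ K(LA B) → K(LA C) → K P → K A ⊕ K B`
-/

set_option autoImplicit false
set_option linter.unusedSectionVars false
set_option linter.unusedSimpArgs false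

open Matrix
open scoped Kronecker unitInterval
open Crest.Agent.R204 Crest.Agent.R204.Ex837 Crest.Agent.R204.LineT357
open Crest.Agent.R204.K357 (K0)
open Crest.Agent.N218.K

namespace Crest.Agent.N218.Th

noncomputable section

variable {P A B C : Type} [NormedCommRing P] [NormedAlgebra ℂ P] [NormedCommRing A]
  [NormedAlgebra ℂ A] [NormedCommRing B] [NormedAlgebra ℂ B] [NormedCommRing C] [NormedAlgebra ℂ C]
variable {n m k l : Type} [Fintype n] [DecidableEq n] [Fintype m] [DecidableEq m]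
  [Fintype k] [DecidableEq k] [Fintype l] [DecidableEq l]

/-- evaluation of loops -/
abbrev e0 (A : Type) [NormedCommRing A] [NormedAlgebra ℂ A] : KC (LA A) →+* KC A := KA (LA.ev 0)

theorem e0_cs (a : KC A) : e0 A (cs A a) = a := ka_ka_id _ _ (fun _ => rfl) a


theorem KL_cs (φ : A →ₐ[ℂ] B) (h : Continuous φ) (a : KC A) :
    KL φ h (cs A a) = cs B (KA φ a) :=
  ka_sq (LA.map φ h) LA.cst LA.cst φ (fun _ => rfl) a

theorem KL_dL (φ : A →ₐ[ℂ] B) (h : Continuous φ) (g : (Matrix n n A)ˣ) :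
    KL φ h (dL g) = dL (umap φ g) := map_dL φ h g

theorem e0_dL (g : (Matrix n n A)ˣ) : e0 A (dL g) = 0 := by
  obtain ⟨a, b, -, -, hab, hba, -⟩ := isCl_EL g
  have h1 : K0.cls ((EL g).map (LA.ev 0)) = K0.cls (1 : Matrix n n A) :=
    K0.cls_eq (K357.idem_map ((LA.ev 0 : LA A →ₐ[ℂ] A) : LA A →+* A) (EL_idem g)) (idemOne n)
      ⟨a 0, b 0, hab 0, hba 0⟩
  rw [dL, map_sub, ka_cls _ (EL_idem g), ka_cls _ (idemOne n), h1, evL_one, sub_self]

theorem exists_dL [CompleteSpace A] {y : KC (LA A)} (hy : e0 A y = 0) :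
    ∃ (r : ℕ) (g : (Matrix (Fin r) (Fin r) A)ˣ), dL g = y := by
  obtain ⟨j, r, q, hq, rfl⟩ := K0.exists_rep_one y
  rw [map_sub, ka_cls _ hq, ka_cls _ (idemOne _), evL_one, sub_eq_zero] at hy
  obtain ⟨l, hl⟩ := free_of (K357.idem_map ((LA.ev 0 : LA A →ₐ[ℂ] A) : LA A →+* A) hq) hy
  obtain ⟨a, b, h1, h2⟩ := hl l le_rfl
  set E : Matrix (Fin j ⊕ Fin l) (Fin j ⊕ Fin l) (LA A) := fromBlocks q 0 0 1 with hE
  have hEi : E * E = E := K357.idem_sum hq (idemOne _)
  have h1' : a * b = E.map (LA.ev 0) := by rw [hE, evL_fb, evL_one]; exact h1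
  obtain ⟨g, g', cg, cg', -, g2, g0, -, hg, -⟩ := Banach313.exists_path_conj_matrix.{0}
    (fun t => E.map (LA.ev t)) (matL_continuous E) (fun t => by rw [← evL_mul, hEi])
  have h01 : g 1 * (a * b) * g' 1 = a * b := by rw [h1', ← hg 1, matL_01]
  have hu : b * (g 1 * a) * (b * g' 1 * a) = 1 := by
    calc _ = b * (g 1 * (a * b) * g' 1) * a := by simp only [Matrix.mul_assoc]
      _ = 1 := by rw [h01, ← Matrix.mul_assoc, h2, Matrix.one_mul, h2]
  have H : IsCl E (b * (g 1 * a)) := by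
    refine ⟨fun s => g s * a, fun s => b * g' s, cg.matrix_mul continuous_const,
      continuous_const.matrix_mul cg', fun s => ?_, fun s => ?_, ?_⟩
    · rw [hg s, ← h1']; simp only [Matrix.mul_assoc]
    · rw [Matrix.mul_assoc, ← Matrix.mul_assoc (g' s), g2, Matrix.one_mul, h2]
    · change g 1 * a = g 0 * a * (b * (g 1 * a))
      rw [g0, Matrix.one_mul, ← Matrix.mul_assoc a, ← h01]
      calc g 1 * a = g 1 * (a * (b * a)) := by rw [h2, Matrix.mul_one]
        _ = g 1 * (a * b) * (g' 1 * g 1) * a := by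
          rw [g2, Matrix.mul_one]; simp only [Matrix.mul_assoc]
        _ = _ := by simp only [Matrix.mul_assoc]
  refine ⟨r + l, ⟨_, _, hu, mul_eq_one_comm.1 hu⟩, ?_⟩
  have h3 := IsCl.cls (g := ⟨_, _, hu, mul_eq_one_comm.1 hu⟩) H
  rw [hE, K0.cls_sum hq (idemOne _), K0.cls_one] at h3
  rw [K0.cls_one]
  simp only [Fintype.card_fin] at h3 ⊢
  push_cast at h3
  linear_combination -h3

theorem exists_dL_cs [CompleteSpace A] (y : KC (LA A)) :
    ∃ (r : ℕ) (g : (Matrix (Fin r) (Fin r) A)ˣ) (c : KC A), y = dL g + cs A c := by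
  obtain ⟨r, g, h⟩ := exists_dL (y := y - cs A (e0 A y)) (by rw [map_sub, e0_cs, sub_self])
  exact ⟨r, g, e0 A y, by rw [h, sub_add_cancel]⟩

theorem isCl_tw {e : Matrix l l (LA A)} {u : Matrix n n A} (H : IsCl e u) {q : Matrix k k A}
    (hq : q * q = q) : IsCl (fromBlocks (e ⊗ₖ q.map (LA.cst (A := A))) 0 0
      ((1 : Matrix n n (LA A)) ⊗ₖ (1 - q.map (LA.cst (A := A))))) (tw u q) := by
  obtain ⟨a, b, ca, cb, hab, hba, h1⟩ := H
  refine ⟨fun s => fromRows (a s ⊗ₖ q) ((1 : Matrix n n A) ⊗ₖ (1 - q)),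
    fun s => fromCols (b s ⊗ₖ q) ((1 : Matrix n n A) ⊗ₖ (1 - q)), ?_, ?_, fun s => ?_,
    fun s => (tw_fr hq _ _ (hba s)).2, ?_⟩
  · refine continuous_matrix ?_
    rintro (i | i) j
    · exact (continuous_kron ca continuous_const).matrix_elem i j
    · exact continuous_const
  · refine continuous_matrix ?_
    rintro i (j | j)
    · exact (continuous_kron cb continuous_const).matrix_elem i j
    · exact continuous_const
  · rw [(tw_fr hq _ _ (hba s)).1, evL_fb, hab]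
    have e1 := kron_map ((LA.ev s : LA A →ₐ[ℂ] A) : LA A →+* A) e (q.map (LA.cst (A := A)))
    have e2 := kron_map ((LA.ev s : LA A →ₐ[ℂ] A) : LA A →+* A) (1 : Matrix n n (LA A))
      (1 - q.map (LA.cst (A := A)))
    rw [mapOne, compl_map] at e2
    exact congrArg₂ (fun x y => fromBlocks x 0 0 y) e1.symm e2.symm
  · have c1 : (1 - q) * q = 0 := by rw [Matrix.sub_mul, Matrix.one_mul, hq, sub_self]
    have c2 : q * (1 - q) = 0 := by rw [Matrix.mul_sub, Matrix.mul_one, hq, sub_self]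
    have c3 : (1 - q) * (1 - q) = 1 - q := by rw [Matrix.mul_sub, c1, Matrix.mul_one, sub_zero]
    change fromRows (a 1 ⊗ₖ q) _ = fromRows (a 0 ⊗ₖ q) _ * _
    rw [h1, fromRows_mul, tw]
    simp only [Matrix.mul_add, ← mul_kronecker_mul, hq, c1, c2, c3, kronecker_zero, add_zero,
      zero_add, Matrix.mul_one]

theorem dL_tw (g : (Matrix n n A)ˣ) {q : Matrix k k A} (hq : q * q = q)
    (G : (Matrix (n × k) (n × k) A)ˣ) (hG : G.val = tw g.val q) :
    dL G = dL g * cs A (K0.cls q) := by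
  have H := isCl_tw (isCl_EL g) hq
  rw [← hG] at H
  have hq' := idem_cst hq
  have hc := K0.idem_compl hq'
  have h1 := K0.cls_compl hq'
  have h2 := H.cls
  rw [K0.cls_one] at h1
  rw [K0.cls_sum (K357.idem_kron (EL_idem g) hq') (K357.idem_kron (idemOne n) hc),
    K0.cls_kron (EL_idem g) hq', K0.cls_kron (idemOne n) hc, K0.cls_one, (isCl_EL g).cls,
    Fintype.card_prod] at h2
  rw [ka_cls _ hq]
  push_cast at h2
  linear_combination -h2 + (Fintype.card n : KC (LA A)) * h1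

variable (S : Bq P A B C)

theorem Bq.isOpenMap [CompleteSpace A] [CompleteSpace C] : IsOpenMap S.sq.al :=
  (⟨S.al.toLinearMap, S.ca⟩ : A →L[ℂ] C).isOpenMap S.sur

theorem Bq.sur' : Function.Surjective S.sq.al := S.sur

variable [CompleteSpace A] [CompleteSpace C]

/-- homotopy invariance of the boundary map -/
theorem bd_path (c : I → Matrix n n C) (hc : Continuous c) (hu : ∀ t, IsUnit (c t)) :
    bd S.sq (c 0) = bd S.sq (c 1) := by
  obtain ⟨u, hu0⟩ := hu 0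
  obtain ⟨v, hv1⟩ := hu 1
  have e1 : (v * u⁻¹).val * (u * v⁻¹).val = 1 := by rw [← Units.val_mul]; simp
  have e2 : (u * v⁻¹).val * (v * u⁻¹).val = 1 := by rw [← Units.val_mul]; simp
  obtain ⟨U, V, h1, h2, h3, -⟩ := lift_of_path S.isOpenMap (fun t => c t * (u⁻¹).val)
    (hc.matrix_mul continuous_const) (fun t => (hu t).mul (u⁻¹).isUnit)
    (by simp only [← hu0, Units.mul_inv]) e1 e2 (by simp only [← hv1, Units.val_mul])
  have e3 := bd_frame S.sur' (isUnit_one (M := Matrix n n C)) ⟨⟨U, V, h1, h2⟩, rfl⟩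
    (isUnit_one (M := Matrix n n B))
  rw [mapOne, Matrix.one_mul, Matrix.one_mul, h3, bd_one S.sur'] at e3
  have e4 := bd_mul S.sur' (v * u⁻¹).isUnit u.isUnit
  rw [e3, zero_add, ← Units.val_mul, inv_mul_cancel_right] at e4
  rw [← hu0, ← hv1, e4]

theorem bd_of_dL (g : (Matrix n n C)ˣ) (h : (Matrix m m C)ˣ) (H : dL g = dL h) :
    bd S.sq g.val = bd S.sq h.val := by
  have H' : dL (usum g (1 : (Matrix m m C)ˣ)) = dL (usum (1 : (Matrix n n C)ˣ) h) := by
    rw [dL_sum, dL_sum, dL_one, dL_one, H, add_zero, zero_add]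
  obtain ⟨M, c, hc, hu, h0, h1⟩ := joined_of_dL _ _ H'
  have e := bd_path S c hc hu
  have i1 : ∀ G : (Matrix (n ⊕ m) (n ⊕ m) C)ˣ, bd S.sq (fromBlocks (fromBlocks G.val 0 0
      (1 : Matrix (Fin M) (Fin M) C)) 0 0 (1 : Matrix ((n ⊕ m) ⊕ Fin M) ((n ⊕ m) ⊕ Fin M) C)) =
      bd S.sq G.val := fun G => by
    have hG : IsUnit (fromBlocks G.val 0 0 (1 : Matrix (Fin M) (Fin M) C)) :=
      (usum G (1 : (Matrix (Fin M) (Fin M) C)ˣ)).isUnit
    rw [bd_sum S.sur' hG isUnit_one, bd_sum S.sur' G.isUnit isUnit_one,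
      bd_one S.sur', bd_one S.sur', add_zero, add_zero]
  rw [h0, h1, i1, i1] at e
  have e1 := bd_sum S.sur' g.isUnit (isUnit_one (M := Matrix m m C))
  have e2 := bd_sum S.sur' (isUnit_one (M := Matrix n n C)) h.isUnit
  rw [bd_one S.sur'] at e1 e2
  rw [add_zero] at e1
  rw [zero_add] at e2
  rw [← e1, ← e2]
  exact e

/-- the boundary map, as a function -/
def dl0 (y : KC (LA C)) : KC P :=
  bd S.sq (exists_dL_cs y).choose_spec.choose.val

theorem dl0_eq (g : (Matrix n n C)ˣ) (c : KC C) : dl0 S (dL g + cs C c) = bd S.sq g.val := by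
  obtain ⟨c', h⟩ := (exists_dL_cs (dL g + cs C c)).choose_spec.choose_spec
  have h1 := congrArg (e0 C) h
  rw [map_add, map_add, e0_dL, e0_dL, e0_cs, e0_cs, zero_add, zero_add] at h1
  rw [← h1] at h
  exact (bd_of_dL S _ _ (add_right_cancel h)).symm

/-- the boundary map -/
def dl : KC (LA C) →+ KC P := AddMonoidHom.mk' (dl0 S) fun y y' => by
  obtain ⟨r, g, c, rfl⟩ := exists_dL_cs y
  obtain ⟨r', g', c', rfl⟩ := exists_dL_cs y'
  rw [add_add_add_comm, ← dL_sum, ← map_add, dl0_eq, dl0_eq, dl0_eq]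
  exact bd_sum S.sur' g.isUnit g'.isUnit

theorem dl_eq (g : (Matrix n n C)ˣ) (c : KC C) : dl S (dL g + cs C c) = bd S.sq g.val :=
  dl0_eq S g c

theorem dl_dL (g : (Matrix n n C)ˣ) : dl S (dL g) = bd S.sq g.val := by
  rw [← dl_eq S g 0, map_zero, add_zero]

theorem dl_cs (c : KC C) : dl S (cs C c) = 0 := by
  have := dl_eq S (1 : (Matrix Unit Unit C)ˣ) c
  rwa [dL_one, zero_add, Units.val_one, bd_one S.sur'] at this



theorem exists_dl {x : KC P} (h1 : KA S.p1 x = 0) (h2 : KA S.p2 x = 0) : ∃ y, dl S y = x := by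
  obtain ⟨r, _, ⟨g, rfl⟩, h⟩ := exists_bd S.sur' h1 h2
  exact ⟨dL g, (dl_dL S g).trans h⟩

theorem Bq.mid {a : KC A} {b : KC B} (h : KA S.al a = KA S.be b) :
    ∃ x : KC P, KA S.p1 x = a ∧ KA S.p2 x = b := S.sq.K0_mid S.sur' h

theorem Bq.ka_comm (x : KC P) : KA S.al (KA S.p1 x) = KA S.be (KA S.p2 x) :=
  ka_sq _ _ _ _ S.comm x

theorem dl_mul (y : KC (LA C)) (z : KC P) :
    dl S (y * cs C (KA S.be (KA S.p2 z))) = dl S y * z := by
  obtain ⟨r, g, c, rfl⟩ := exists_dL_cs y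
  have key : ∀ (j : ℕ) (q : Matrix (Fin j) (Fin j) P), q * q = q →
      dl S ((dL g + cs C c) * cs C (KA S.be (KA S.p2 (K0.cls q)))) =
        dl S (dL g + cs C c) * K0.cls q := fun j q hq => by
    have hq2 := K357.idem_map S.sq.p2 hq
    have hq3 := K357.idem_map S.sq.be hq2
    obtain ⟨⟨G, hG⟩, h⟩ := bd_tw S.sur' g.isUnit hq
    have e : KA S.be (KA S.p2 (K0.cls q)) = K0.cls ((q.map S.sq.p2).map S.sq.be) := by
      rw [ka_cls _ hq]; exact ka_cls _ hq2
    rw [e, add_mul, ← dL_tw g hq3 G hG, ← map_mul, dl_eq, dl_eq, hG, h]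
  induction z using K0.ind with
  | _ j j' q q' hq hq' =>
    rw [map_sub, map_sub, map_sub, mul_sub, map_sub, key _ _ hq, key _ _ hq', mul_sub]

theorem dl_al (a : KC (LA A)) : dl S (KL S.al S.ca a) = 0 := by
  obtain ⟨r, g, c, rfl⟩ := exists_dL_cs a
  rw [map_add, KL_dL, KL_cs, dl_eq]
  have e3 := bd_frame S.sur' (isUnit_one (M := Matrix (Fin r) (Fin r) C)) g.isUnit
    (isUnit_one (M := Matrix (Fin r) (Fin r) B))
  rw [mapOne, Matrix.one_mul, Matrix.one_mul, bd_one S.sur'] at e3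
  exact e3

theorem dl_be [CompleteSpace B] (b : KC (LA B)) : dl S (KL S.be S.cb b) = 0 := by
  obtain ⟨r, g, c, rfl⟩ := exists_dL_cs b
  rw [map_add, KL_dL, KL_cs, dl_eq]
  have e3 := bd_frame S.sur' (isUnit_one (M := Matrix (Fin r) (Fin r) C))
    (isUnit_one (M := Matrix (Fin r) (Fin r) A)) g.isUnit
  rw [mapOne, Matrix.mul_one, Matrix.mul_one, bd_one S.sur'] at e3
  exact e3

/-- exactness at `K (LA C)` -/
theorem of_dl {y : KC (LA C)} (h : dl S y = 0) :
    ∃ a b c, y = KL S.al S.ca a + KL S.be S.cb b + cs C c := by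
  obtain ⟨r, g, c, rfl⟩ := exists_dL_cs y
  rw [dl_eq] at h
  obtain ⟨j, _, _, ⟨u, rfl⟩, ⟨v, rfl⟩, e⟩ := of_bd_eq_zero S.sur' g.isUnit h
  refine ⟨dL u, dL v, c, ?_⟩
  have : usum g (1 : (Matrix (Fin j) (Fin j) C)ˣ) = umap S.be v * umap S.al u := Units.ext e
  rw [KL_dL, KL_dL, add_comm (dL (umap S.al u)), ← dL_mul, ← this, dL_sum, dL_one, add_zero]

variable {P' A' B' C' : Type} [NormedCommRing P'] [NormedAlgebra ℂ P'] [NormedCommRing A']
  [NormedAlgebra ℂ A'] [NormedCommRing B'] [NormedAlgebra ℂ B'] [NormedCommRing C']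
  [NormedAlgebra ℂ C'] [CompleteSpace A'] [CompleteSpace C'] {S} {S' : Bq P' A' B' C'}

/-- the underlying morphism of squares of rings -/
def BqH.sqH (F : BqH S S') : SqH S.sq S'.sq := ⟨F.fP, F.fA, F.fB, F.fC, F.h1, F.h2, F.ha, F.hb⟩

theorem dl_nat (F : BqH S S') (y : KC (LA C)) :
    KA F.fP (dl S y) = dl S' (KL F.fC F.cC y) := by
  obtain ⟨r, g, c, rfl⟩ := exists_dL_cs y
  rw [dl_eq, map_add, KL_dL, KL_cs, dl_eq]
  exact map_bd F.sqH S.sur' S'.sur' g.isUnit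

theorem KL_KL {R T : Type} [NormedCommRing R] [NormedAlgebra ℂ R] [NormedCommRing T]
    [NormedAlgebra ℂ T] (p : R →ₐ[ℂ] T) (hp : Continuous p) (s : T →ₐ[ℂ] R) (hs : Continuous s)
    (h : ∀ x, s (p x) = x) (y : KC (LA R)) : KL s hs (KL p hp y) = y :=
  ka_ka_id _ _ (fun _ => LA.ext fun _ => h _) y

theorem KL_sq {R T R' T' : Type} [NormedCommRing R] [NormedAlgebra ℂ R] [NormedCommRing T]
    [NormedAlgebra ℂ T] [NormedCommRing R'] [NormedAlgebra ℂ R'] [NormedCommRing T']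
    [NormedAlgebra ℂ T'] (g : T →ₐ[ℂ] T') (hg : Continuous g) (f : R →ₐ[ℂ] T) (hf : Continuous f)
    (g' : R' →ₐ[ℂ] T') (hg' : Continuous g') (f' : R →ₐ[ℂ] R') (hf' : Continuous f')
    (h : ∀ x, g (f x) = g' (f' x)) (y : KC (LA R)) : KL g hg (KL f hf y) = KL g' hg' (KL f' hf' y) :=
  ka_sq _ _ _ _ (fun _ => LA.ext fun _ => h _) y

/-- a class is basic plus a multiple of the Thom class -/
theorem Bj.split {R T : Type} [CommRing R] [CommRing T] [Algebra ℂ R] [Algebra ℂ T]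
    {p : R →ₐ[ℂ] T} {s : T →ₐ[ℂ] R} {l : KC T} (H : Bj p s l) (h : ∀ x, s (p x) = x) (x : KC T) :
    ∃ a, x = KA p (KA s x) + KA p a * l := by
  obtain ⟨a, ha⟩ := H.2 (x - KA p (KA s x)) (by rw [map_sub, ka_ka_id s p h, sub_self])
  exact ⟨a, by rw [← ha, add_sub_cancel]⟩

end

theorem five : FIVE := by
  intro P A B C P' A' B' C' _ _ _ _ _ _ _ _ _ _ _ _ _ _ _ _ _ _ _ _ _ S S' F G l gP gA gB gC hl
    HA HB HC
  have n1 : ∀ a, KA S'.p1 (KA F.fP a) = KA F.fA (KA S.p1 a) := ka_sq _ _ _ _ F.h1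
  have n2 : ∀ a, KA S'.p2 (KA F.fP a) = KA F.fB (KA S.p2 a) := ka_sq _ _ _ _ F.h2
  have na : ∀ a, KA S'.al (KA F.fA a) = KA F.fC (KA S.al a) := ka_sq _ _ _ _ F.ha
  have nb : ∀ a, KA S'.be (KA F.fB a) = KA F.fC (KA S.be a) := ka_sq _ _ _ _ F.hb
  have m1 : ∀ a, KA G.fA (KA S'.p1 a) = KA S.p1 (KA G.fP a) := fun a =>
    (ka_sq _ _ _ _ G.h1 a).symm
  have m2 : ∀ a, KA G.fB (KA S'.p2 a) = KA S.p2 (KA G.fP a) := fun a =>
    (ka_sq _ _ _ _ G.h2 a).symm
  have mb : ∀ a, KA G.fC (KA S'.be a) = KA S.be (KA G.fB a) := fun a =>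
    (ka_sq _ _ _ _ G.hb a).symm
  have hl0 : KL G.fC G.cC (cs C' (KA S'.be (KA S'.p2 l))) = 0 := by
    rw [KL_cs, mb, m2, hl, map_zero, map_zero, map_zero]
  constructor
  · intro a ha
    have a1 : KA S.p1 a = 0 := HA.1.1 _ (by rw [← n1, ← map_mul, ha, map_zero])
    have a2 : KA S.p2 a = 0 := HB.1.1 _ (by rw [← n2, ← map_mul, ha, map_zero])
    obtain ⟨b, rfl⟩ := exists_dl S a1 a2
    rw [dl_nat, ← dl_mul] at ha
    obtain ⟨α, β, γ, h⟩ := of_dl S' ha
    obtain ⟨α0, hα⟩ := HA.2.split (fun _ => LA.ext fun _ => gA _) α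
    obtain ⟨β0, hβ⟩ := HB.2.split (fun _ => LA.ext fun _ => gB _) β
    obtain ⟨γ0, hγ⟩ := HC.1.split gC γ
    have la : ∀ y, KL S'.al S'.ca (KL F.fA F.cA y) = KL F.fC F.cC (KL S.al S.ca y) :=
      KL_sq _ _ _ _ _ _ _ _ F.ha
    have lb : ∀ y, KL S'.be S'.cb (KL F.fB F.cB y) = KL F.fC F.cC (KL S.be S.cb y) :=
      KL_sq _ _ _ _ _ _ _ _ F.hb
    change α = KL F.fA F.cA (KL G.fA G.cA α) + KL F.fA F.cA α0 * _ at hα
    change β = KL F.fB F.cB (KL G.fB G.cB β) + KL F.fB F.cB β0 * _ at hβ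
    generalize KL G.fA G.cA α = α1 at hα
    generalize KL G.fB G.cB β = β1 at hβ
    generalize KA G.fC γ = γ1 at hγ
    subst hα hβ hγ
    simp only [map_add, map_mul, la, lb, KL_cs, S'.ka_comm] at h
    rw [← KL_cs F.fC F.cC, ← KL_cs F.fC F.cC] at h
    have h2 : KL F.fC F.cC (b - (KL S.al S.ca α0 + KL S.be S.cb β0 + cs C γ0)) *
        cs C' (KA S'.be (KA S'.p2 l)) =
        KL F.fC F.cC (KL S.al S.ca α1 + KL S.be S.cb β1 + cs C γ1) := by
      simp only [map_add, map_sub]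
      linear_combination h
    have h3 := congrArg (KL G.fC G.cC) h2
    rw [map_mul, hl0, mul_zero, KL_KL _ _ _ _ gC] at h3
    rw [← h3, map_zero] at h2
    have h4 := sub_eq_zero.1 (HC.2.1 _ h2)
    rw [h4, map_add, map_add, dl_al, dl_be, dl_cs, add_zero, add_zero]
  · intro x hx
    obtain ⟨a1, h1⟩ := HA.1.2 (KA S'.p1 x) (by rw [m1, hx, map_zero])
    obtain ⟨a2, h2⟩ := HB.1.2 (KA S'.p2 x) (by rw [m2, hx, map_zero])
    have h0 : KA S.al a1 = KA S.be a2 := by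
      refine sub_eq_zero.1 (HC.1.1 _ ?_)
      have := S'.ka_comm x
      rw [h1, h2, map_mul, map_mul, na, nb, S'.ka_comm] at this
      rw [map_sub, sub_mul, this, sub_self]
    obtain ⟨a, rfl, rfl⟩ := S.mid h0
    obtain ⟨y, hy⟩ := exists_dl S' (x := x - KA F.fP a * l)
      (by rw [map_sub, map_mul, n1, ← h1, sub_self]) (by rw [map_sub, map_mul, n2, ← h2, sub_self])
    obtain ⟨b, hb⟩ := HC.2.split (fun _ => LA.ext fun _ => gC _) y
    change y = KL F.fC F.cC (KL G.fC G.cC y) + KL F.fC F.cC b * _ at hb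
    have e1 : dl S (KL G.fC G.cC y) = 0 := by
      rw [← dl_nat, hy, map_sub, map_mul, hx, hl, mul_zero, sub_self]
    refine ⟨a + dl S b, ?_⟩
    generalize KL G.fC G.cC y = y1 at hb e1
    rw [hb, map_add, dl_mul, ← dl_nat, ← dl_nat, e1, map_zero, zero_add] at hy
    rw [map_add, add_mul, hy, add_sub_cancel]

end Crest.Agent.N218.Th
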