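import Crest.Agent.N218.Th.Defs
import Crest.Agent.N218.K.Lam1
import Crest.Agent.N218.Th.Gl
import Crest.Agent.N218.K.Rel
import Crest.Agent.R204.BottFin_369
import Crest.Agent.N218.Th.Mv_Mg
import Crest.Agent.N218.K.Cp2

-- ▼ part N218/Th/One
section

/-! Row 218, D0 (helper72): the Thom isomorphism for one character -/

set_option autoImplicit false

open Crest.Agent.R204.K357 (K0)
open Crest.Agent.N218.K OnePoint ComplexConjugate Set

namespace Crest.Agent.N218.Th

noncomputable section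

variable {X : Type} [TopologicalSpace X] {B : Ex X} {l : KX B.E}

theorem th_neg (h : B.Th l) : B.Th (-l) := by
  refine ⟨by rw [Ex.Rd, map_neg, h.1, neg_zero], fun x hx => ?_⟩
  obtain ⟨a, h1, h2⟩ := h.2 x hx
  refine ⟨-a, by simpa [Ex.sm] using h1, fun b k => neg_eq_iff_eq_neg.1 (h2 (-b) ?_)⟩
  simpa [Ex.sm] using k

theorem Un.th [CompactSpace X] [T2Space X] (h : Un B l univ) : B.Th l := by
  have := h X B (.id X) ⟨.id _, fun _ => rfl, fun _ => rfl⟩
    ⟨fun _ _ _ e => e, fun _ b e => ⟨b, e.symm, rfl⟩⟩ fun _ => trivial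
  rwa [pull_id] at this

theorem Un.cover (hL : LOC) (r : B.Rd l) (h0 : Un B l ∅) {J : Type} (S : J → Set X)
    (c : ∀ j, IsClosed (S j)) (h : ∀ j, Un B l (S j)) (s : Finset J) : Un B l (⋃ j ∈ s, S j) := by
  classical
  induction s using Finset.induction_on with
  | empty => simpa using h0
  | insert j s _ ih =>
    rw [Finset.set_biUnion_insert]
    exact hL X B l _ _ r (c j) (isClosed_biUnion_finset fun j _ => c j) (h j) ih

/-- descent along a map from a compact space -/
theorem desc {P E T : Type} [TopologicalSpace P] [TopologicalSpace E] [TopologicalSpace T]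
    [CompactSpace P] [T2Space E] [Nonempty T] {π : P → E} {ψ : P → T} (hπ : Continuous π)
    (hψ : Continuous ψ) (h : ∀ a b, π a = π b → ψ a = ψ b) :
    ∃ φ : E → T, ContinuousOn φ (range π) ∧ ∀ a, φ (π a) = ψ a := by
  have e : ∀ a, Function.extend π ψ (fun _ => Classical.arbitrary T) (π a) = ψ a :=
    Function.FactorsThrough.extend_apply (fun a b => h a b) _
  refine ⟨_, continuousOn_iff_isClosed.2 fun C hC =>
    ⟨π '' (ψ ⁻¹' C), ((hC.preimage hψ).isCompact.image hπ).isClosed, ?_⟩, e⟩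
  ext x
  refine ⟨?_, ?_⟩
  · rintro ⟨k, a, rfl⟩
    exact ⟨⟨a, by rwa [mem_preimage, e] at k, rfl⟩, a, rfl⟩
  · rintro ⟨⟨a, k, rfl⟩, -⟩
    exact ⟨by rwa [mem_preimage, e], a, rfl⟩

/-- the Hopf projection -/
def e2 : Matrix Bool Bool C(OnePoint ℂ, ℂ)
  | true, true => al
  | true, false => star be
  | false, true => be
  | false, false => 1 - al

theorem al_mul (v : ℂ) : al v * (1 + v * conj v) = 1 := by
  rw [al_coe, Complex.mul_conj, Complex.normSq_eq_norm_sq]
  exact_mod_cast inv_mul_cancel₀ (nsq_pos v).ne'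

theorem al_cj (v : ℂ) : conj (al v) = al v := Complex.conj_ofReal _

theorem be_sq (w : OnePoint ℂ) : be w * conj (be w) = al w * (1 - al w) := by
  induction w using OnePoint.rec with
  | infty => simp [al_infty, be_infty]
  | coe v => rw [be_coe, map_mul, al_cj]; linear_combination al v * al_mul v

theorem e2_idem : e2 * e2 = e2 := by
  ext i j w
  have := be_sq w
  rw [mul_ap]
  cases i <;> cases j <;> simp [e2] <;> first | ring1 | linear_combination this

theorem un_e2 (hB : BASE) : Un S2 (kc e2 - 1 : KX (OnePoint ℂ)) univ := by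
  have n : ∀ w : OnePoint ℂ, w ≠ ((0 : ℂ) : OnePoint ℂ) → 1 - al w ≠ 0 := fun w k => by
    induction w using OnePoint.rec with
    | infty => simp [al_infty]
    | coe v =>
      have k : v ≠ 0 := fun e => k (by rw [e])
      rw [show 1 - al v = v * conj v * al v by linear_combination -al_mul v]
      exact mul_ne_zero (mul_ne_zero k ((map_ne_zero _).2 k)) (left_ne_zero_of_mul_eq_one (al_mul v))
  have c : Continuous fun v : ℂ => al v := al.continuous.comp continuous_coe
  refine hB Bool e2 (fun v t => cond t 1 v) (fun v t => cond t (al v) (conj v * al v))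
    (fun w t => cond t (conj (be w) / (1 - al w)) 1) (fun w t => cond t (be w) (1 - al w))
    (continuous_pi fun t => by cases t <;> simp only [cond] <;> fun_prop)
    (continuous_pi fun t => by cases t; exacts [Complex.continuous_conj.mul c, c])
    (continuousOn_pi.2 fun t => ?_)
    (Continuous.continuousOn (continuous_pi fun t => by cases t <;> simp only [cond] <;> fun_prop))
    (fun v i j => ?_) (fun v => ?_) (fun w k i j => ?_)
    (fun w k => ?_) (.inl fun v k => funext fun t => ?_)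
  · cases t
    · exact continuousOn_const
    · exact ContinuousOn.div (by fun_prop) (by fun_prop) n
  · cases i <;> cases j <;> simp [e2, be_coe, al_cj]
    linear_combination -al_mul v
  · simp only [Fintype.sum_bool, cond]; linear_combination al_mul v
  · have := n w k
    cases i <;> cases j <;> simp [e2] <;> field_simp
    linear_combination -be_sq w
  · have := n w k
    simp only [Fintype.sum_bool, cond]
    field_simp
    linear_combination be_sq w
  · have := n v fun e => k (coe_injective e)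
    cases t <;> simp [be_coe, al_cj]
    field_simp
    linear_combination -al_mul v

/-- a local trivialisation -/
theorem un_loc (hB : BASE) {I : Type} [Fintype I]
    {Q : Matrix (I ⊕ Unit) (I ⊕ Unit) C(B.E, ℂ)} (hQ : Q * Q = Q) {S : Set X} {T : Set B.E}
    {φ : B.E → OnePoint ℂ × (I → ℂ)} (c : ContinuousOn φ T) (hT : ∀ b, B.p b ∈ S → b ∈ T)
    (hs : ∀ x ∈ S, (φ (B.s x)).1 = ∞)
    (inj : ∀ b b', B.p b ∈ S → B.p b = B.p b' → (φ b).1 = (φ b').1 → b = b')
    (sur : ∀ x ∈ S, ∀ w, ∃ b, B.p b = x ∧ (φ b).1 = w) (un : ∀ b, B.p b ∈ S → Un1 (φ b).2)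
    (e : ∀ b, B.p b ∈ S → ∀ i k, Q i k b = i.elim (φ b).2 (fun _ => 1) *
      e2 i.isLeft k.isLeft (φ b).1 * conj (k.elim (φ b).2 fun _ => 1)) :
    Un B (1 - kc Q) S := by
  intro Z _ _ _ A g F hF hg
  have m : ∀ a, B.p (F.f a) ∈ S := fun a => F.hp a ▸ hg _
  have c' : Continuous fun a => φ (F.f a) := c.comp_continuous F.f.continuous fun a => hT _ (m a)
  let f : C(A.E, OnePoint ℂ) := ⟨fun a => (φ (F.f a)).1, c'.fst⟩
  have k : A.Th (-pull f (kc e2 - 1)) := th_neg (un_e2 hB Z A (.const _ ()) ⟨f, fun _ => rfl,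
    fun z => (congrArg (fun b => (φ b).1) (F.hs z)).trans (hs _ (hg z))⟩
    ⟨fun a a' p q => hF.1 a a' p (inj _ _ (m a) (by rw [F.hp, F.hp, p]) q), fun z w _ => by
      obtain ⟨b, p, q⟩ := sur _ (hg z) w
      obtain ⟨a, p', q'⟩ := hF.2 z b p.symm
      exact ⟨a, p', (congrArg (fun b => (φ b).1) q').trans q⟩⟩ fun _ => trivial)
  let U : I ⊕ Unit → C(A.E, ℂ) := fun i => ⟨fun a => i.elim (φ (F.f a)).2 fun _ => 1, by
    cases i
    · exact (continuous_apply _).comp c'.snd
    · exact continuous_const⟩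
  have id := fun i j w => (mul_ap _ _ i j w).symm.trans (congrArg (fun M => M i j w) e2_idem)
  convert k using 1
  rw [← map_neg, neg_sub, map_sub, map_sub, map_one, map_one, pull_kc _ hQ, pull_kc _ e2_idem]
  congr 1
  refine K0.cls_eq ?_ ?_ ⟨Matrix.of fun i t => U i * (e2 i.isLeft t).comp f,
    Matrix.of fun t i => (e2 t i.isLeft).comp f * star (U i), ?_, ?_⟩
  · ext i j a
    exact (mul_ap _ _ i j a).trans ((mul_ap Q Q i j (F.f a)).symm.trans
      (congrArg (fun M => M i j (F.f a)) hQ))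
  · ext i j a
    exact (mul_ap _ _ i j a).trans (id i j _)
  · ext i j a
    refine (mul_ap _ _ i j a).trans (.trans ?_ (e _ (m a) i j).symm)
    rw [← id, Finset.mul_sum, Finset.sum_mul]
    exact Finset.sum_congr rfl fun t _ => by simp [U, f, mul_assoc]
  · ext i j a
    refine (mul_ap _ _ i j a).trans (.trans ?_ (id i j (f a)))
    have := un _ (m a)
    rw [Fintype.sum_sum_type, Fintype.sum_bool, ← mul_one (_ * e2 true j _), ← this,
      Finset.mul_sum]
    congr 1
    · exact Finset.sum_congr rfl fun t _ => by simp [U, f]; ring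
    · simp [U, f]

variable {Γ : Type} [Group Γ] [TopologicalSpace Γ] [CompactSpace Γ] {Y : GS Γ} {χ : Γ →* Circle}

theorem un_sec (hB : BASE) (hχ : Continuous χ) (S : Sec Y χ) {W : Set Y.Z} (hW : IsClosed W)
    (c : W → Circle) (cc : Continuous c) (iv : ∀ g, ∀ y ∈ W, Y.act g y ∈ W)
    (eq : ∀ g (y y' : W), Y.act g y = y' → χ g * c y' = c y) :
    Un (Sb Y (ch χ hχ)) (1 - S.H hχ) (Y.pr '' W) := by
  have : CompactSpace W := isCompact_iff_compactSpace.1 hW.isCompact
  let m : W × ℂ → OnePoint ℂ := fun p => ((c p.1 * p.2 : ℂ) : OnePoint ℂ)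
  have cm : Continuous (opx m) := continuous_opx (continuous_coe.comp
    ((continuous_subtype_val.comp (cc.comp continuous_fst)).mul continuous_snd)) fun K hK => by
      obtain ⟨R, hR⟩ := hK.isBounded.subset_closedBall 0
      refine ⟨_, isCompact_closedBall 0 R, fun y w w' h e k => h ?_⟩
      have := hR k
      rwa [← coe_injective e, mem_closedBall_zero_iff, norm_mul, Circle.norm_coe, one_mul,
        ← mem_closedBall_zero_iff] at this
  have cp : Continuous fun z : W × OnePoint ℂ => pt Y (ch χ hχ) z.1 z.2 :=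
    (Y.prod (ch χ hχ).sph).pr.continuous.comp (continuous_subtype_val.prodMap continuous_id)
  obtain ⟨φ, c1, c2⟩ := desc (ψ := fun z => (opx m z, fun i => c z.1 * S.s z.1 i)) cp
    (cm.prodMk (continuous_pi fun i => (continuous_subtype_val.comp (cc.comp continuous_fst)).mul
      ((continuous_apply i).comp (S.s.continuous.comp continuous_fst.subtype_val))))
    fun ⟨y, w⟩ ⟨y', w'⟩ h => by
      obtain ⟨g, h⟩ := (Y.prod (ch χ hχ).sph).pr_eq.1 h
      have h1 : Y.act g y = y' := congrArg Prod.fst h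
      obtain rfl : (ch χ hχ).sph.act g w = w' := congrArg Prod.snd h
      have h2 := congrArg (fun z : Circle => (z : ℂ)) (eq g y y' h1)
      simp only [Circle.coe_mul] at h2
      refine Prod.ext ?_ (funext fun i => ?_)
      · induction w using OnePoint.rec with
        | infty => rfl
        | coe v => exact congrArg OnePoint.some (show _ = c y' * (χ g * v) by rw [← h2]; ring)
      · change _ = c y' * S.s y' i
        rw [← h1, S.eq, ← h2]; ring
  have sj : ∀ b, (Sb Y (ch χ hχ)).p b ∈ Y.pr '' W → ∃ (y : W) (w : OnePoint ℂ),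
      pt Y (ch χ hχ) y w = b := fun b ⟨y, hy, e⟩ => by
    obtain ⟨y', w, rfl⟩ := pt_surj b
    obtain ⟨g, rfl⟩ := Y.pr_eq.1 e
    exact ⟨⟨_, iv g y hy⟩, w, rfl⟩
  have oi : ∀ y : W, Function.Injective fun w => opx m (y, w) := fun y w w' e => by
    induction w using OnePoint.rec <;> induction w' using OnePoint.rec
    · rfl
    · cases e
    · cases e
    · exact congrArg _ (mul_left_cancel₀ (c y).coe_ne_zero (coe_injective e))
  refine un_loc hB (S.ln_H hχ).idem c1 (fun b k => let ⟨y, w, e⟩ := sj b k; ⟨(y, w), e⟩) ?_ ?_ ?_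
    ?_ ?_
  · rintro _ ⟨y, hy, rfl⟩
    exact congrArg Prod.fst (c2 (⟨y, hy⟩, ∞))
  · intro b b' k p q
    obtain ⟨y, w, rfl⟩ := sj b k
    obtain ⟨y', w', rfl⟩ := pt_surj b'
    obtain ⟨g, e⟩ := Y.pr_eq.1 (show Y.pr y' = Y.pr y from p.symm)
    have e' : pt Y (ch χ hχ) y ((ch χ hχ).sph.act g w') = pt Y (ch χ hχ) y' w' :=
      e ▸ (Y.prod (ch χ hχ).sph).pr_act g (y', w')
    rw [← e'] at q ⊢
    exact congrArg _ (oi y ((congrArg Prod.fst (c2 (y, w))).symm.trans
      (q.trans (congrArg Prod.fst (c2 (y, _))))))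
  · rintro _ ⟨y, hy, rfl⟩ w
    induction w using OnePoint.rec with
    | infty => exact ⟨_, rfl, congrArg Prod.fst (c2 (⟨y, hy⟩, ∞))⟩
    | coe v =>
      exact ⟨_, rfl, (congrArg Prod.fst (c2 (⟨y, hy⟩, (((c ⟨y, hy⟩ : ℂ)⁻¹ * v : ℂ) : OnePoint ℂ)))).trans
        (congrArg OnePoint.some (mul_inv_cancel_left₀ (c _).coe_ne_zero v))⟩
  · intro b k
    obtain ⟨y, w, rfl⟩ := sj b k
    rw [c2 (y, w)]
    exact (S.un y).smul _
  · intro b k
    obtain ⟨y, w, rfl⟩ := sj b k
    rw [c2 (y, w)]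
    have a : al (opx m (y, w)) = al w ∧ be (opx m (y, w)) = c y * be w := by
      induction w using OnePoint.rec with
      | infty => exact ⟨rfl, (mul_zero _).symm⟩
      | coe v =>
        have : al ((c y * v : ℂ) : OnePoint ℂ) = al v := by
          rw [al_coe, al_coe, norm_mul, Circle.norm_coe, one_mul]
        exact ⟨this, by rw [opx_coe, be_coe, be_coe, this, mul_assoc]⟩
    have u := circ_conj (c y)
    rintro (i | i) (j | j)
    · change al w * (S.s y i * conj (S.s y j)) = c y * S.s y i * al (opx m (y, w)) * conj (c y * S.s y j)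
      rw [a.1, map_mul]; linear_combination (-al w * S.s y i * conj (S.s y j)) * u
    · change S.s y i * conj (be w) = c y * S.s y i * conj (be (opx m (y, w))) * conj 1
      rw [a.2, map_mul, map_one]; linear_combination (-S.s y i * conj (be w)) * u
    · change conj (S.s y j * conj (be w)) = 1 * be (opx m (y, w)) * conj (c y * S.s y j)
      rw [a.2, map_mul, map_mul, Complex.conj_conj]
      linear_combination (-conj (S.s y j) * be w) * u
    · change 1 - al w = 1 * (1 - al (opx m (y, w))) * conj 1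
      rw [a.1, map_one, one_mul, mul_one]

theorem un_lam1 (hL : LOC) (hB : BASE) (hχ : Continuous χ) (h : Nonempty (Sec Y χ)) :
    Un (Sb Y (ch χ hχ)) (lam1 Y χ hχ) univ := by
  obtain ⟨S⟩ := h
  obtain ⟨ε, e0, e1⟩ : ∃ ε : ℝ, 0 < ε ∧ ∀ y, ∃ j, ε ≤ ‖S.s y‖ ∧ ‖S.s y‖ ≤ ‖S.s y j‖ := by
    have n : ∀ y, S.s y ≠ 0 := fun y e => by simpa [Un1, e] using S.un y
    obtain ⟨ε, e0, e1⟩ := isCompact_univ.exists_forall_le' (f := fun y => ‖S.s y‖)
      (by fun_prop) (a := 0) fun y _ => norm_pos_iff.2 (n y)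
    refine ⟨ε, e0, fun y => ?_⟩
    by_contra k
    push Not at k
    exact ((pi_norm_lt_iff (norm_pos_iff.2 (n y))).2 fun j => k j (e1 y trivial)).false
  have cl : ∀ j, IsClosed {y | ε ≤ ‖S.s y j‖} := fun j => isClosed_le continuous_const (by fun_prop)
  have := Un.cover hL (rd_lam1 hχ) (lam1_eq hχ S ▸ image_empty Y.pr ▸ un_sec hB hχ S isClosed_empty
    (fun _ => 1) continuous_const (fun _ _ k => k) fun _ y => y.2.elim)
    (fun j => Y.pr '' {y | ε ≤ ‖S.s y j‖}) (fun j => ((cl j).isCompact.image Y.pr.continuous).isClosed)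
    (fun j => ?_) Finset.univ
  · refine fun Z _ _ _ A g F hF _ => this Z A g F hF fun z => ?_
    obtain ⟨y, e⟩ := Y.pr_surj (g z)
    obtain ⟨j, a, b⟩ := e1 y
    exact mem_biUnion (Finset.mem_univ j) ⟨y, a.trans b, e⟩
  have n : ∀ y : {y | ε ≤ ‖S.s y j‖}, (‖S.s y j‖ : ℂ) ≠ 0 := fun y =>
    Complex.ofReal_ne_zero.2 (e0.trans_le y.2).ne'
  rw [lam1_eq hχ S]
  refine un_sec hB hχ S (cl j) (fun y => ⟨conj (S.s y j) / ‖S.s y j‖, ?_⟩) ?_ (fun g y k => ?_)
    fun g y y' e => Circle.ext ?_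
  · simp [Submonoid.unitSphere, (e0.trans_le y.2).ne']
  · exact Continuous.subtype_mk (Continuous.div (by fun_prop) (by fun_prop) n) _
  · change ε ≤ _
    rwa [S.eq, norm_mul, Circle.norm_coe, one_mul]
  · change χ g * (conj (S.s y' j) / ‖S.s y' j‖) = conj (S.s y j) / ‖S.s y j‖
    rw [← e, S.eq, norm_mul, Circle.norm_coe, one_mul, map_mul, ← mul_div_assoc, ← mul_assoc,
      circ_conj, one_mul]

/-- **the Thom isomorphism for one character** -/
theorem thom1 (hL : LOC) (hB : BASE) (hχ : Continuous χ) (h : Nonempty (Sec Y χ)) :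
    (Sb Y (ch χ hχ)).Th (lam1 Y χ hχ) := (un_lam1 hL hB hχ h).th

end

end Crest.Agent.N218.Th
private theorem rz_0ee6b6120d : type_of% @_root_.Crest.Agent.N218.Th.e2.eq_1 := @_root_.Crest.Agent.N218.Th.e2.eq_1 -- L54
end

-- ▼ part N218/Th/BaseA
section

/-!
# Row 218, D0 (helper25): Bott periodicity for a square over `C(S¹, R)` (algebraic form)
-/

set_option autoImplicit false
set_option linter.unusedSectionVars false
set_option linter.unusedSimpArgs false

open Matrix
open Crest.Agent.R204 Crest.Agent.R204.Ex837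
open Crest.Agent.R204.K357 (K0)
open Crest.Agent.R204.Bott671 (Conn pl cM zc zi Lam evHom)
open Crest.Agent.N218.K

namespace Crest.Agent.N218.Th

noncomputable section

section gen

variable {P A B C : Type} [CommRing P] [CommRing A] [CommRing B] [CommRing C] {S : Sq P A B C}
variable {n m k : Type} [Fintype n] [DecidableEq n] [Fintype m] [DecidableEq m]
  [Fintype k] [DecidableEq k]

theorem IsG.sub {e : Matrix k k P} {u : Matrix n n C} (H : IsG S e u) (σ : m ≃ n) :
    IsG S e (u.submatrix σ σ) := by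
  obtain ⟨a, a', b, b', h1, h2, h3, h4, h5⟩ := H
  refine ⟨a.submatrix id σ, a'.submatrix σ id, b.submatrix id σ, b'.submatrix σ id, ?_, ?_, ?_,
    ?_, ?_⟩
  · rw [submatrix_mul_equiv, submatrix_id_id, h1]
  · rw [← submatrix_mul _ _ _ id _ Function.bijective_id, h2, submatrix_one_equiv]
  · rw [submatrix_mul_equiv, submatrix_id_id, h3]
  · rw [← submatrix_mul _ _ _ id _ Function.bijective_id, h4, submatrix_one_equiv]
  · rw [← submatrix_map, ← submatrix_map, submatrix_mul_equiv, h5]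

theorem bd_sub (hal : Function.Surjective S.al) {u : Matrix n n C} (hu : IsUnit u) (σ : m ≃ n) :
    bd S (u.submatrix σ σ) = bd S u := by
  obtain ⟨e, he⟩ := exists_isG hal hu
  rw [(he.sub σ).cls hal, he.cls hal, Fintype.card_congr σ]

end gen

section top

variable {P A B C : Type} [CommRing P] [NormedCommRing A] [CompleteSpace A] [CommRing B]
  [NormedCommRing C] [CompleteSpace C] {S : Sq P A B C} {n : Type} [Fintype n] [DecidableEq n]

theorem bd_conn (hal : Function.Surjective S.al) (ho : IsOpenMap S.al) {u v : Matrix n n C}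
    (h : Conn u v) : bd S u = bd S v := by
  have hu := h.left
  obtain ⟨⟨u, w, uw, wu⟩, rfl⟩ := hu
  have hw : IsUnit w := ⟨⟨w, u, wu, uw⟩, rfl⟩
  have h1 := (Conn.refl hw).mul h
  obtain ⟨⟨y, y', yy, yy'⟩, hy⟩ := h1.right
  obtain ⟨γ, hγ⟩ := h1
  obtain ⟨U, V, e1, e2, e3, -⟩ := lift_of_path ho γ γ.continuous hγ (γ.source.trans wu) yy yy'
    (γ.target.trans hy.symm)
  have := bd_frame hal h.left (c := U) (d := 1) ⟨⟨U, V, e1, e2⟩, rfl⟩ isUnit_one
  have hy' : y = w * v := hy
  rw [mapOne, Matrix.one_mul, e3, hy', ← Matrix.mul_assoc] at this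
  have e : u * w * v = v := by rw [uw, Matrix.one_mul]
  exact this.symm.trans (congrArg (bd S) e)

end top

variable {R : Type} [NormedCommRing R] [NormedAlgebra ℂ R] [CompleteSpace R]
  {P A B : Type} [CommRing P] [NormedCommRing A] [CompleteSpace A] [CommRing B]

/-- the hypotheses of the algebraic Bott theorem -/
structure BH (S : Sq P A B C(Circle, R)) (π : R →+* P) : Prop where
  sur : Function.Surjective S.al
  op : IsOpenMap S.al
  cst : ∀ r, S.be (S.p2 (π r)) = ContinuousMap.const _ r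
  ca : ∀ (n : Type) [Fintype n] [DecidableEq n] (c : Matrix n n A), IsUnit c →
    ∃ k : Matrix n n R, Conn (c.map S.al) (cM k)
  cb : ∀ (n : Type) [Fintype n] [DecidableEq n] (c : Matrix n n B), IsUnit c →
    ∃ k : Matrix n n R, Conn (c.map S.be) (cM k)

/-- the Bott class -/
def bott (S : Sq P A B C(Circle, R)) : KC P :=
  bd S ((zc : C(Circle, R)) • (1 : Matrix Unit Unit C(Circle, R)))

variable {S : Sq P A B C(Circle, R)} {π : R →+* P} {n : Type} [Fintype n] [DecidableEq n]

theorem isUnit_z (n : Type) [Fintype n] [DecidableEq n] :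
    IsUnit ((zc : C(Circle, R)) • (1 : Matrix n n C(Circle, R))) :=
  IsUnit.of_mul_eq_one ((zi : C(Circle, R)) • 1) (by
    rw [smul_mul_smul_comm, Bott671.zc_mul_zi, one_smul, Matrix.mul_one])

theorem pl_lam (p : Matrix n n R) : pl (1 - p) p = Lam p := by rw [Lam, pl, add_comm]

namespace BH
variable (H : BH S π)
include H

theorem cM_eq (p : Matrix n n R) : ((p.map π).map S.p2).map S.be = cM p := by
  ext i j z
  simp [cM, H.cst]

theorem bd_cM {c : Matrix n n R} (hc : IsUnit c) : bd S (cM c) = 0 := by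
  have := bd_frame H.sur (isUnit_one (M := Matrix n n C(Circle, R))) (c := 1)
    (d := (c.map π).map S.p2) isUnit_one ((hc.map π.mapMatrix).map S.p2.mapMatrix)
  rwa [mapOne, Matrix.mul_one, Matrix.mul_one, H.cM_eq, bd_one H.sur] at this

theorem bd_lam {p : Matrix n n R} (hp : p * p = p) :
    bd S (Lam p) = KR π (K0.cls p) * bott S := by
  obtain ⟨h1, h2⟩ := bd_tw H.sur (isUnit_z (R := R) Unit) (K357.idem_map π hp)
  rw [H.cM_eq] at h1 h2
  have e : Lam p = (tw ((zc : C(Circle, R)) • (1 : Matrix Unit Unit C(Circle, R)))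
      (cM p)).submatrix (Equiv.uniqueProd n Unit).symm (Equiv.uniqueProd n Unit).symm := by
    rw [Lam, Bott671.cM_sub, Bott671.cM_one]
    ext i j : 2
    simp [tw]
  rw [e, bd_sub H.sur h1, h2, mul_comm]
  congr 1
  exact (K0.map_cls π hp).symm

theorem bd_pow (N : ℕ) : IsUnit ((zc : C(Circle, R)) ^ N • (1 : Matrix n n C(Circle, R))) ∧
    bd S ((zc : C(Circle, R)) ^ N • (1 : Matrix n n C(Circle, R))) =
      ((N * Fintype.card n : ℕ) : KC P) * bott S := by
  induction N with
  | zero => simpa using bd_one H.sur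
  | succ N ih =>
    have e : (zc : C(Circle, R)) ^ (N + 1) • (1 : Matrix n n C(Circle, R)) =
        ((zc : C(Circle, R)) ^ N • 1) * ((zc : C(Circle, R)) • 1) := by
      rw [smul_mul_smul_comm, Matrix.mul_one, pow_succ]
    have e2 : (zc : C(Circle, R)) • (1 : Matrix n n C(Circle, R)) = Lam 1 := by
      rw [Lam, sub_self, Bott671.cM_zero, Bott671.cM_one, add_zero]
    rw [e]
    refine ⟨ih.1.mul (isUnit_z n), ?_⟩
    rw [bd_mul H.sur ih.1 (isUnit_z n), ih.2, e2, H.bd_lam (idemOne n), K0.cls_one, map_natCast]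
    push_cast
    ring

/-- surjectivity -/
theorem surj {x : KC P} (h1 : KR S.p1 x = 0) (h2 : KR S.p2 x = 0) :
    ∃ a : KC R, x = KR π a * bott S := by
  obtain ⟨r, u, hu, rfl⟩ := exists_bd H.sur h1 h2
  obtain ⟨N, k, _, _, p, c, hp, hc, h⟩ := BottK369.loopS R _ u hu
  have e := bd_conn H.sur H.op h
  obtain ⟨z1, z2⟩ := H.bd_pow (n := Fin r) N
  have e1 : (zc : C(Circle, R)) ^ N • u = ((zc : C(Circle, R)) ^ N • 1) * u := by
    rw [smul_mul_assoc, Matrix.one_mul]
  rw [e1, bd_sum H.sur (z1.mul hu) isUnit_one, bd_one H.sur, add_zero, bd_mul H.sur z1 hu, z2,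
    pl_lam, bd_mul H.sur (Bott671.isUnit_Lam hp) (Bott671.isUnit_cM hc), H.bd_cM hc, add_zero,
    H.bd_lam hp] at e
  refine ⟨K0.cls p - ((N * Fintype.card (Fin r) : ℕ) : KC R), ?_⟩
  rw [map_sub, map_natCast, sub_mul, ← e]
  ring

omit H in
theorem lam_sum {m : Type} [Fintype m] [DecidableEq m] (p : Matrix n n R) :
    Lam (fromBlocks p 0 0 (0 : Matrix m m R)) = fromBlocks (Lam p) 0 0 1 := by
  ext (i | i) (j | j) z <;> simp [Lam, cM, Matrix.one_apply, apply_ite]

theorem cls_eq {p q : Matrix n n R} (hp : p * p = p) (hq : q * q = q)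
    (h : bd S (Lam p) = bd S (Lam q)) : K0.cls p = K0.cls q := by
  obtain ⟨⟨L, w, Lw, wL⟩, hL⟩ := Bott671.isUnit_Lam hq
  obtain rfl : L = Lam q := hL
  have hw : IsUnit w := ⟨⟨w, _, wL, Lw⟩, rfl⟩
  have hu := (Bott671.isUnit_Lam hp).mul hw
  have e0 : Lam p * w * Lam q = Lam p := by rw [Matrix.mul_assoc, wL, Matrix.mul_one]
  have e1 := bd_mul H.sur hu (Bott671.isUnit_Lam hq)
  rw [e0, h, right_eq_add] at e1
  obtain ⟨r, c, d, hc, hd, e⟩ := of_bd_eq_zero H.sur hu e1
  obtain ⟨k1, c1⟩ := H.ca _ c hc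
  obtain ⟨k2, c2⟩ := H.cb _ d hd
  have c3 := c2.mul c1
  rw [← e, ← Bott671.cM_mul] at c3
  have ev : ∀ q : Matrix n n R, (Lam q).map (evHom (1 : Circle)) = 1 := fun q => by
    ext i j
    simp [Lam, cM, evHom]
  have ew : w.map (evHom (1 : Circle)) = 1 := by
    have := congrArg (fun M => Matrix.map M (evHom (R := R) (1 : Circle))) Lw
    simpa only [Matrix.map_mul, ev, Matrix.one_mul, mapOne] using this
  have c4 := (c3.map (evHom (1 : Circle)) (continuous_eval_const _)).map
    (ContinuousMap.C (α := Circle) : R →+* C(Circle, R)) ContinuousMap.continuous_const'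
  simp only [RingHom.mapMatrix_apply] at c4
  rw [fb_map, Matrix.map_mul, ev, ew, mapOne, Matrix.one_mul, fromBlocks_one, mapOne] at c4
  have c5 : Conn (fromBlocks (Lam p * w) 0 0 (1 : Matrix (Fin r) (Fin r) C(Circle, R))) 1 :=
    c3.trans c4.symm
  have c6 := c5.mul (Conn.refl (Bott671.isUnit_fromBlocks_diag (Bott671.isUnit_Lam hq)
    (isUnit_one (M := Matrix (Fin r) (Fin r) C(Circle, R)))))
  rw [Matrix.one_mul, fromBlocks_multiply] at c6
  simp only [e0, Matrix.mul_zero, Matrix.zero_mul, add_zero, zero_add, Matrix.mul_one] at c6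
  rw [← lam_sum, ← lam_sum, ← pl_lam, ← pl_lam] at c6
  have := BottK369.loopI R _ _ _ (K357.idem_sum hp (idemZero _)) (K357.idem_sum hq (idemZero _)) c6
  rwa [cls_dsum_zero hp, cls_dsum_zero hq] at this

/-- injectivity -/
theorem inj {a : KC R} (h : KR π a * bott S = 0) : a = 0 := by
  obtain ⟨j, r, p, hp, rfl⟩ := K0.exists_rep_one a
  have h1 := K357.idem_sum hp (idemZero (A := R) (Fin r))
  have h2 := K357.idem_sum (idemZero (A := R) (Fin j)) (idemOne (Fin r))
  have e1 := cls_dsum_zero (J := Fin r) hp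
  have e2 := cls_zero_dsum (A := R) (J := Fin j) (idemOne (Fin r))
  rw [sub_eq_zero, ← e1, ← e2]
  refine H.cls_eq h1 h2 ?_
  rw [H.bd_lam h1, H.bd_lam h2, e1, e2, ← sub_eq_zero, ← sub_mul, ← map_sub]
  exact h

end BH

end

end Crest.Agent.N218.Th
end

-- ▼ part N218/Th/Base
section

/-!
# Row 218, D0 (helper25): `base : BASE`, the Thom class of a line on `S²` (Bott periodicity)
-/

set_option autoImplicit false
set_option linter.unusedSectionVars false
set_option linter.unusedSimpArgs false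

open Matrix unitInterval OnePoint Set Topology
open Crest.Agent.R204 Crest.Agent.R204.Ex837
open Crest.Agent.R204.K357 (K0)
open Crest.Agent.R204.Bott671 (Conn pl cM zc zi Lam evHom)
open Crest.Agent.N218.K

namespace Crest.Agent.N218.Th

noncomputable section

/-- the closed unit disc -/
abbrev Dk : Type := Metric.closedBall (0 : ℂ) 1

namespace Dk

/-- the boundary circle -/
def iC : C(Circle, Dk) := ⟨fun z => ⟨z, by simp⟩, by fun_prop⟩
/-- the boundary circle, inverted -/
def jC : C(Circle, Dk) := iC.comp ⟨fun z => z⁻¹, continuous_inv⟩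
/-- the centre -/
def d0 : Dk := ⟨0, by simp⟩
/-- the southern hemisphere -/
def coeD : C(Dk, OnePoint ℂ) :=
  ⟨fun d => ((d : ℂ) : OnePoint ℂ), continuous_coe.comp continuous_subtype_val⟩

open Classical in
/-- inversion -/
def invO (v : ℂ) : OnePoint ℂ := if v = 0 then ∞ else ((v⁻¹ : ℂ) : OnePoint ℂ)

theorem invO_zero : invO 0 = ∞ := if_pos rfl
theorem invO_ne {v : ℂ} (h : v ≠ 0) : invO v = ((v⁻¹ : ℂ) : OnePoint ℂ) := if_neg h

theorem invO_coe {v w : ℂ} (h : invO v = w) : v ≠ 0 ∧ w = v⁻¹ := by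
  by_cases hv : v = 0
  · rw [hv, invO_zero] at h; exact absurd h (infty_ne_coe w)
  · rw [invO_ne hv] at h; exact ⟨hv, (coe_injective h).symm⟩

theorem invO_inj : Function.Injective invO := fun v w h => by
  by_cases hw : w = 0
  · by_contra hv
    rw [hw] at hv
    rw [hw, invO_zero, invO_ne hv] at h
    exact coe_ne_infty _ h
  · rw [invO_ne hw] at h
    exact inv_injective (invO_coe h).2.symm

theorem continuous_invO : Continuous invO := by
  rw [continuous_iff_continuousAt]
  intro v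
  by_cases hv : v = 0
  · subst hv
    rw [ContinuousAt, invO_zero, hasBasis_nhds_infty.tendsto_right_iff]
    rintro K ⟨-, hK⟩
    obtain ⟨M, hM, hb⟩ := hK.isBounded.exists_pos_norm_le
    filter_upwards [Metric.ball_mem_nhds (0 : ℂ) (inv_pos.2 hM)] with w hw
    by_cases h0 : w = 0
    · exact .inr (by rw [h0, invO_zero]; rfl)
    · refine .inl ⟨w⁻¹, fun k => ?_, (invO_ne h0).symm⟩
      have h1 := hb _ k
      rw [mem_ball_zero_iff] at hw
      rw [norm_inv, inv_le_comm₀ (norm_pos_iff.2 h0) hM] at h1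
      exact absurd hw (not_lt.2 h1)
  · refine (continuous_coe.continuousAt.comp (continuousAt_inv₀ hv)).congr ?_
    filter_upwards [isOpen_ne.mem_nhds hv] with w hw using (invO_ne hw).symm

/-- the northern hemisphere -/
def invD : C(Dk, OnePoint ℂ) := ⟨fun d => invO d, continuous_invO.comp continuous_subtype_val⟩

theorem invD_jC (z : Circle) : invD (jC z) = ((z : ℂ) : OnePoint ℂ) := by
  change invO ((z⁻¹ : Circle) : ℂ) = _
  rw [invO_ne (Circle.coe_ne_zero _), Circle.coe_inv, inv_inv]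

theorem invD_ne (d : Dk) : invD d ≠ ((0 : ℂ) : OnePoint ℂ) := fun h =>
  (invO_coe h).1 (inv_eq_zero.1 (invO_coe h).2.symm)

theorem cover (w : OnePoint ℂ) : (∃ d, coeD d = w) ∨ ∃ d, invD d = w := by
  induction w using OnePoint.rec with
  | infty => exact .inr ⟨d0, invO_zero⟩
  | coe v =>
    by_cases h : ‖v‖ ≤ 1
    · exact .inl ⟨⟨v, mem_closedBall_zero_iff.2 h⟩, rfl⟩
    · have h1 := not_le.1 h
      have h0 : v ≠ 0 := norm_pos_iff.1 (one_pos.trans h1)
      refine .inr ⟨⟨v⁻¹, mem_closedBall_zero_iff.2 ?_⟩, ?_⟩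
      · rw [norm_inv]; exact inv_le_one_of_one_le₀ h1.le
      · change invO v⁻¹ = _
        rw [invO_ne (inv_ne_zero h0), inv_inv]

theorem meet {d d' : Dk} (h : coeD d = invD d') : ∃ z, iC z = d ∧ jC z = d' := by
  obtain ⟨h0, h1⟩ := invO_coe h.symm
  have a := mem_closedBall_zero_iff.1 d.2
  have b := mem_closedBall_zero_iff.1 d'.2
  have c : ‖(d : ℂ)‖ = 1 := by
    refine le_antisymm a ?_
    rw [h1, norm_inv]
    exact (one_le_inv₀ (norm_pos_iff.2 h0)).2 b
  refine ⟨⟨d, mem_sphere_zero_iff_norm.2 c⟩, rfl, Subtype.ext ?_⟩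
  change (d : ℂ)⁻¹ = d'
  rw [h1, inv_inv]

/-- the contraction of the disc -/
def scl : C(I × Dk, Dk) :=
  ⟨fun x => ⟨((x.1 : ℝ) : ℂ) * x.2, mem_closedBall_zero_iff.2 (by
    rw [norm_mul, Complex.norm_real, Real.norm_of_nonneg x.1.2.1]
    exact mul_le_one₀ x.1.2.2 (norm_nonneg _) (mem_closedBall_zero_iff.1 x.2.2))⟩, by fun_prop⟩

variable {R : Type} [NormedCommRing R] [NormedAlgebra ℂ R] [CompleteSpace R]

/-- restriction -/
abbrev res {X Y : Type} [TopologicalSpace X] [TopologicalSpace Y] (ι : C(X, Y)) :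
    C(Y, R) →+* C(X, R) := (ContinuousMap.compRightAlgHom ℂ R ι : C(Y, R) →ₐ[ℂ] C(X, R))

theorem scl_cont (f : C(Dk, R)) : Continuous fun t => res (scl.curry t) f :=
  (ContinuousMap.continuous_postcomp f).comp scl.curry.continuous

theorem scl_zero (f : C(Dk, R)) : res (scl.curry 0) f = ContinuousMap.const _ (f d0) :=
  ContinuousMap.ext fun d => congrArg f (Subtype.ext (by simp [scl, d0]))

theorem scl_one (f : C(Dk, R)) : res (scl.curry 1) f = f :=
  ContinuousMap.ext fun d => congrArg f (Subtype.ext (by simp [scl]))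

theorem conn (ι : C(Circle, Dk)) (n : Type) [Fintype n] [DecidableEq n] (c : Matrix n n C(Dk, R))
    (hc : IsUnit c) : ∃ k : Matrix n n R, Conn (c.map (res ι)) (cM k) := by
  have h : Conn (c.map (res (scl.curry 0))) (c.map (res (scl.curry 1))) :=
    ⟨⟨⟨fun t => c.map (res (scl.curry t)), continuous_matrix fun i j => scl_cont _⟩, rfl, rfl⟩,
      fun t => hc.map (res (scl.curry t)).mapMatrix⟩
  have h' := (h.map (res ι) (ContinuousMap.compRightAlgHom_continuous ℂ R ι)).symm
  refine ⟨c.map (evHom d0), ?_⟩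
  convert h' using 1
  · ext i j : 2
    simp only [RingHom.mapMatrix_apply, map_apply, scl_one]
  · ext i j : 2
    simp only [RingHom.mapMatrix_apply, map_apply, scl_zero]
    rfl

theorem k_eq (x : KC C(Dk, R)) :
    KR (ContinuousMap.C (α := Dk) : R →+* C(Dk, R)) (KR (evHom d0) x) = x := by
  have h := HInv313.map_apply_eq_of_homotopy (fun t => res (R := R) (scl.curry t)) scl_cont x
  rw [kr_kr _ _ (res (scl.curry 0)) fun f => (scl_zero f).symm]
  exact h.trans ((congrArg (fun φ => KR φ x) (RingHom.ext scl_one)).trans (K0.map_id x))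

theorem k_zero (d : Dk) {x : KC C(Dk, R)} (h : KR (evHom d) x = 0) : x = 0 := by
  rw [← k_eq x, kr_id _ _ fun _ => rfl] at h
  rw [← k_eq x, h, map_zero]

variable {Z E : Type} [TopologicalSpace Z] [CompactSpace Z] [T2Space Z] [TopologicalSpace E]

/-- currying -/
def cur (m : C(Dk × Z, E)) : C(E, ℂ) →+* C(Dk, C(Z, ℂ)) where
  toFun f := (f.comp m).curry
  map_one' := rfl
  map_mul' _ _ := rfl
  map_zero' := rfl
  map_add' _ _ := rfl


theorem res_surj : Function.Surjective (res (R := C(Z, ℂ)) iC) := fun g => by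
  obtain ⟨f, hf⟩ := cr_surj (i := iC.prodMap (.id Z)) (Function.Injective.prodMap
    (fun z w h => Circle.ext (congrArg (fun d : Dk => (d : ℂ)) h)) Function.injective_id) g.uncurry
  exact ⟨f.curry, ContinuousMap.ext fun z => ContinuousMap.ext fun y =>
    DFunLike.congr_fun hf (z, y)⟩

theorem res_open : IsOpenMap (res (R := C(Z, ℂ)) iC) := by
  let f : C(Dk, C(Z, ℂ)) →L[ℂ] C(Circle, C(Z, ℂ)) :=
    ⟨(ContinuousMap.compRightAlgHom ℂ _ iC).toLinearMap,
      ContinuousMap.compRightAlgHom_continuous ℂ _ iC⟩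
  exact f.isOpenMap res_surj

/-- a hemisphere of a trivial sphere bundle -/
def hm (ψ : C(Z × OnePoint ℂ, E)) (h : C(Dk, OnePoint ℂ)) : C(Dk × Z, E) :=
  ψ.comp (ContinuousMap.snd.prodMk (h.comp ContinuousMap.fst))

theorem hm_cover {ψ : C(Z × OnePoint ℂ, E)} (hψ : Function.Bijective ψ) (x : E) :
    x ∈ range (hm ψ coeD) ∨ x ∈ range (hm ψ invD) := by
  obtain ⟨⟨z, w⟩, rfl⟩ := hψ.2 x
  rcases cover w with ⟨d, rfl⟩ | ⟨d, rfl⟩
  exacts [.inl ⟨(d, z), rfl⟩, .inr ⟨(d, z), rfl⟩]

/-- the square of the two hemispheres -/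
def sq [T2Space E] (ψ : C(Z × OnePoint ℂ, E)) (hψ : Function.Bijective ψ) :
    Sq C(E, ℂ) C(Dk, C(Z, ℂ)) C(Dk, C(Z, ℂ)) C(Circle, C(Z, ℂ)) where
  p1 := cur (hm ψ coeD)
  p2 := cur (hm ψ invD)
  al := res iC
  be := res jC
  comm f := ContinuousMap.ext fun z => ContinuousMap.ext fun y =>
    congrArg (fun w => f (ψ (y, w))) (invD_jC z).symm
  lift a b e := by
    obtain ⟨c, c1, c2⟩ := exists_glue (hm ψ coeD) (hm ψ invD) (hm_cover hψ) a.uncurry b.uncurry
      (fun u u' e' => by
        obtain ⟨e1, e2⟩ := Prod.ext_iff.1 (hψ.1 e')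
        rw [show u = u' from Prod.ext (Subtype.ext (coe_injective e2)) e1])
      (fun u u' e' => by
        obtain ⟨e1, e2⟩ := Prod.ext_iff.1 (hψ.1 e')
        rw [show u = u' from Prod.ext (Subtype.ext (invO_inj e2)) e1])
      fun ⟨d, y⟩ ⟨d', y'⟩ e' => by
        obtain ⟨e1, e2⟩ := Prod.ext_iff.1 (hψ.1 e')
        obtain rfl : y = y' := e1
        obtain ⟨z, rfl, rfl⟩ := meet e2
        exact DFunLike.congr_fun (DFunLike.congr_fun e z) y
    exact ⟨c, ContinuousMap.ext fun d => ContinuousMap.ext fun y => c1 (d, y),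
      ContinuousMap.ext fun d => ContinuousMap.ext fun y => c2 (d, y)⟩
  inj f f' e e' := by
    ext x
    rcases hm_cover hψ x with ⟨u, rfl⟩ | ⟨u, rfl⟩
    exacts [DFunLike.congr_fun (DFunLike.congr_fun e u.1) u.2,
      DFunLike.congr_fun (DFunLike.congr_fun e' u.1) u.2]

end Dk

open Dk

theorem th_of {Z : Type} [TopologicalSpace Z] [CompactSpace Z] [T2Space Z] (A : Ex Z)
    (ψ : C(Z × OnePoint ℂ, A.E)) (hψ : Function.Bijective ψ) (hp : ∀ z w, A.p (ψ (z, w)) = z)
    (hs : ∀ z, A.s z = ψ (z, ∞)) {l : KX A.E}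
    (hl : l = bott (Dk.sq ψ hψ) ∨ l = -bott (Dk.sq ψ hψ)) : A.Th l := by
  have H : BH (Dk.sq ψ hψ) (cr A.p) :=
    ⟨res_surj, res_open, fun r => ContinuousMap.ext fun z => ContinuousMap.ext fun y =>
      congrArg r (hp _ _), conn iC, conn jC⟩
  have e0 : ∀ x, pull A.s x = KR (evHom d0) (KR (Dk.sq ψ hψ).p2 x) := fun x =>
    (kr_kr _ _ (cr A.s) (fun f => ContinuousMap.ext fun y => congrArg f
      ((congrArg (fun w => ψ (y, w)) invO_zero).trans (hs y).symm)) x).symm
  have e1 : pull A.s (bott (Dk.sq ψ hψ)) = 0 := by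
    rw [e0, show KR (Dk.sq ψ hψ).p2 (bott (Dk.sq ψ hψ)) = 0 from p2_bd H.sur (isUnit_z Unit),
      map_zero]
  have e2 : ∀ x, A.Rd x → ∃ a, x = pull A.p a * bott (Dk.sq ψ hψ) := fun x hx => by
    have h2 : KR (Dk.sq ψ hψ).p2 x = 0 := k_zero d0 ((e0 x).symm.trans hx)
    refine H.surj (k_zero (iC 1) ?_) h2
    rw [kr_sq _ _ (evHom (jC 1)) (Dk.sq ψ hψ).p2 fun f =>
      DFunLike.congr_fun ((Dk.sq ψ hψ).comm f) 1, h2, map_zero]
  have e3 : ∀ a, pull A.p a * bott (Dk.sq ψ hψ) = 0 → a = 0 := fun a => H.inj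
  rcases hl with rfl | rfl
  · refine ⟨e1, fun x hx => ?_⟩
    obtain ⟨a, ha⟩ := e2 x hx
    refine ⟨a, ha, fun b hb => sub_eq_zero.1 (e3 _ ?_)⟩
    rw [map_sub, sub_mul, ← ha]
    exact sub_eq_zero.2 (Eq.symm hb)
  · refine ⟨(map_neg _ _).trans (by rw [e1, neg_zero]), fun x hx => ?_⟩
    obtain ⟨a, ha⟩ := e2 x hx
    refine ⟨-a, by simpa [Ex.sm] using ha, fun b hb => eq_neg_of_add_eq_zero_left (e3 _ ?_)⟩
    have hb' : x = pull A.p b * -bott (Dk.sq ψ hψ) := hb
    rw [map_add, add_mul, ← ha, hb']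
    ring

theorem bd_zi {R : Type} [NormedCommRing R] [NormedAlgebra ℂ R] [CompleteSpace R]
    {P A B : Type} [CommRing P] [CommRing A] [CommRing B] {S : Sq P A B C(Circle, R)}
    (h : Function.Surjective S.al) :
    bd S ((zi : C(Circle, R)) • (1 : Matrix Unit Unit C(Circle, R))) =
      -bd S ((zc : C(Circle, R)) • (1 : Matrix Unit Unit C(Circle, R))) := by
  have e1 : ((zi : C(Circle, R)) • (1 : Matrix Unit Unit C(Circle, R))) *
      ((zc : C(Circle, R)) • 1) = 1 := by
    rw [smul_mul_smul_comm, Bott671.zi_mul_zc, one_smul, Matrix.mul_one]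
  refine eq_neg_of_add_eq_zero_left ?_
  rw [← bd_mul h (IsUnit.of_mul_eq_one _ e1) (isUnit_z Unit), e1, bd_one h]

theorem col_row {T k : Type} [CommRing T] [Fintype k] (a a' : k → T) (i j : k) :
    ((Matrix.of fun i (_ : Unit) => a i) * (Matrix.of fun (_ : Unit) i => a' i)) i j =
      a i * a' j := by
  simp [Matrix.mul_apply]

theorem row_col {X T k : Type} [TopologicalSpace X] [CommRing T] [Fintype k]
    (φ : C(X, ℂ) →+* T) (a a' : k → C(X, ℂ)) (h : ∀ x, ∑ i, a' i x * a i x = 1) :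
    (Matrix.of fun (_ : Unit) i => φ (a' i)) * (Matrix.of fun i (_ : Unit) => φ (a i)) = 1 := by
  have e : ∑ i, a' i * a i = 1 := by
    ext x
    simpa using h x
  ext i j
  simpa [Matrix.mul_apply] using congrArg φ e

theorem col_smul {R k : Type} [CommRing R] [Fintype k] (b : Matrix k Unit R) (u : R) (i : k)
    (j : Unit) : (b * (u • (1 : Matrix Unit Unit R))) i j = b i j * u := by
  simp [mul_comm]

theorem isG_line {Z E k : Type} [TopologicalSpace Z] [CompactSpace Z] [T2Space Z]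
    [TopologicalSpace E] [T2Space E] [Fintype k] [DecidableEq k] {ψ : C(Z × OnePoint ℂ, E)}
    (hψ : Function.Bijective ψ) {f : C(E, OnePoint ℂ)} (hf : ∀ z w, f (ψ (z, w)) = w)
    (e : Matrix k k C(OnePoint ℂ, ℂ)) (a a' b b' : k → C(Dk, ℂ))
    (h1 : ∀ d i j, e i j (coeD d) = a i d * a' j d) (h2 : ∀ d, ∑ i, a' i d * a i d = 1)
    (h3 : ∀ d i j, e i j (invD d) = b i d * b' j d) (h4 : ∀ d, ∑ i, b' i d * b i d = 1)
    (u : C(Circle, C(Z, ℂ))) (h5 : ∀ z y i, a i (iC z) = b i (jC z) * u z y) :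
    IsG (Dk.sq ψ hψ) (e.map (cr f)) (u • (1 : Matrix Unit Unit _)) := by
  refine ⟨.of fun i _ => cur .fst (a i), .of fun _ i => cur .fst (a' i),
    .of fun i _ => cur .fst (b i), .of fun _ i => cur .fst (b' i), ?_,
    row_col _ a a' h2, ?_, row_col _ b b' h4, ?_⟩
  · ext i j d y
    rw [col_row]
    exact (h1 d i j).symm.trans (congrArg (e i j) (hf y _).symm)
  · ext i j d y
    rw [col_row]
    exact (h3 d i j).symm.trans (congrArg (e i j) (hf y _).symm)
  · ext i j z y
    rw [col_smul]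
    exact h5 z y i

/-- **BASE** -/
theorem base : BASE := by
  intro k _ _ e a a' b b' ca ca' cb cb' h1 h2 h3 h4 h5 Z _ _ _ A g F hF _
  obtain ⟨f, ef⟩ : ∃ f : C(A.E, OnePoint ℂ), f = F.f := ⟨_, rfl⟩
  have hκ : Function.Bijective fun x : A.E => ((A.p x, f x) : Z × OnePoint ℂ) := by
    subst ef
    exact ⟨fun x y h => hF.1 x y (congrArg Prod.fst h) (congrArg Prod.snd h), fun ⟨z, w⟩ =>
      let ⟨x, e1, e2⟩ := hF.2 z w rfl; ⟨x, Prod.ext e1 e2⟩⟩
  have hs0 : ∀ z, f (A.s z) = ∞ := fun z => ef ▸ F.hs z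
  suffices A.Th (pull f ((K0.cls e : KX (OnePoint ℂ)) - 1 : KX (OnePoint ℂ))) from ef ▸ this
  let κ : A.E ≃ₜ Z × OnePoint ℂ := Continuous.homeoOfEquivCompactToT2
    (f := Equiv.ofBijective _ hκ) (A.p.continuous.prodMk f.continuous)
  obtain ⟨ψ, hψ, hp, hf⟩ : ∃ ψ : C(Z × OnePoint ℂ, A.E), Function.Bijective ψ ∧
      (∀ z w, A.p (ψ (z, w)) = z) ∧ ∀ z w, f (ψ (z, w)) = w :=
    ⟨⟨κ.symm, κ.symm.continuous⟩, κ.symm.bijective,
      fun z w => congrArg Prod.fst (κ.apply_symm_apply (z, w)),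
      fun z w => congrArg Prod.snd (κ.apply_symm_apply (z, w))⟩
  have hs : ∀ z, A.s z = ψ (z, ∞) := fun z =>
    hκ.1 (Prod.ext ((A.ps z).trans (hp z _).symm) ((hs0 z).trans (hf z _).symm))
  have cI : ∀ {c : OnePoint ℂ → k → ℂ}, ContinuousOn c {((0 : ℂ) : OnePoint ℂ)}ᶜ → ∀ i,
      Continuous fun d : Dk => c (invD d) i := fun hc i =>
    (continuous_apply i).comp (hc.comp_continuous invD.continuous invD_ne)
  have cJ : ∀ {c : ℂ → k → ℂ}, Continuous c → ∀ i, Continuous fun d : Dk => c d i := fun hc i =>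
    (continuous_apply i).comp (hc.comp continuous_subtype_val)
  have he : e * e = e := by
    ext i j w
    rw [K.mul_ap]
    by_cases hw : w = ((0 : ℂ) : OnePoint ℂ)
    · subst hw
      simp only [h1]
      calc _ = a 0 i * (∑ x, a' 0 x * a 0 x) * a' 0 j := by
            rw [Finset.mul_sum, Finset.sum_mul]; exact Finset.sum_congr rfl fun _ _ => by ring
        _ = _ := by rw [h2, mul_one]
    · simp only [h3 w hw]
      calc _ = b w i * (∑ x, b' w x * b w x) * b' w j := by
            rw [Finset.mul_sum, Finset.sum_mul]; exact Finset.sum_congr rfl fun _ _ => by ring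
        _ = _ := by rw [h4 w hw, mul_one]
  have G : ∀ u : C(Circle, C(Z, ℂ)), (∀ (z : Circle) y i, a z i = b (z : ℂ) i * u z y) →
      bd (Dk.sq ψ hψ) (u • (1 : Matrix Unit Unit _)) =
        pull f ((K0.cls e : KX (OnePoint ℂ)) - 1 : KX (OnePoint ℂ)) := fun u hu => by
    have := isG_line hψ hf e (fun i => ⟨_, cJ ca i⟩) (fun i => ⟨_, cJ ca' i⟩)
      (fun i => ⟨_, cI cb i⟩) (fun i => ⟨_, cI cb' i⟩) (fun d => h1 d) (fun d => h2 d)
      (fun d => h3 _ (invD_ne d)) (fun d => h4 _ (invD_ne d)) u fun z y i =>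
        (hu z y i).trans (congrArg (fun w => b w i * u z y) (invD_jC z).symm)
    rw [this.cls res_surj, map_sub, map_one, Fintype.card_unit, Nat.cast_one]
    congr 1
    exact (K0.map_cls _ he).symm
  refine th_of A ψ hψ hp hs ?_
  rcases h5 with h5 | h5
  · refine .inl (G zc fun z y i => ?_).symm
    rw [h5 z z.coe_ne_zero]
    simp [mul_comm]
  · refine .inr ((G zi fun z y i => ?_).symm.trans (bd_zi res_surj))
    rw [h5 z z.coe_ne_zero]
    simp [mul_comm]

end

end Crest.Agent.N218.Th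
end

-- ▼ part N218/Th/Fin

/-!
# Row 218, block D0 (helper72): the Thom isomorphism for line bundles, unconditionally
-/

set_option autoImplicit false

namespace Crest.Agent.N218.K

/-- **the Thom isomorphism for one character** -/
theorem thom : THOM1 := fun _ _ _ _ _ _ hχ h => Th.thom1 (Th.loc Th.five) Th.base hχ h

end Crest.Agent.N218.K

namespace Crest.Agent.N218.Th


theorem thom : K.THOM1 := K.thom

end Crest.Agent.N218.Th
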